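import Vale.Agent.P168.Arr

/-!
P168: bounded observables of an exchangeable array, the two-site form and tree maps.
-/

open MeasureTheory Filter Topology

noncomputable section

namespace Vale.Agent.P168

variable {K : ℕ}

/-- A bounded measurable observable. -/
def Bdd (x : Obs K) : Prop := Measurable x ∧ ∃ B, ∀ σ, |x σ| ≤ B

/-- A measurable observable bounded by one. -/
def Unit1 (x : Obs K) : Prop := Measurable x ∧ ∀ σ, |x σ| ≤ 1

/-- The observable does not look at replicas on the paths in `S`. -/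
def Avoid (S : Set (Fin K → ℕ)) (x : Obs K) : Prop :=
  ∀ σ σ' : Pt K → Bool, (∀ a, a.1 ∉ S → σ a = σ' a) → x σ = x σ'

theorem Unit1.bdd {x : Obs K} (h : Unit1 x) : Bdd x := ⟨h.1, 1, h.2⟩

theorem Unit1.mul {x y : Obs K} (hx : Unit1 x) (hy : Unit1 y) : Unit1 (x * y) :=
  ⟨hx.1.mul hy.1, fun σ => by
    rw [Pi.mul_apply, abs_mul]
    exact (mul_le_mul (hx.2 σ) (hy.2 σ) (abs_nonneg _) zero_le_one).trans_eq (one_mul 1)⟩

theorem Bdd.const (c : ℝ) : Bdd (fun _ : Pt K → Bool => c) :=
  ⟨measurable_const, |c|, fun _ => le_rfl⟩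

theorem Bdd.add {x y : Obs K} (hx : Bdd x) (hy : Bdd y) : Bdd (x + y) := by
  obtain ⟨A, hA⟩ := hx.2
  obtain ⟨B, hB⟩ := hy.2
  exact ⟨hx.1.add hy.1, A + B, fun σ => (abs_add_le _ _).trans (add_le_add (hA σ) (hB σ))⟩

theorem Bdd.smul {x : Obs K} (hx : Bdd x) (c : ℝ) : Bdd (c • x) := by
  obtain ⟨A, hA⟩ := hx.2
  refine ⟨hx.1.const_smul c, |c| * A, fun σ => ?_⟩
  rw [Pi.smul_apply, smul_eq_mul, abs_mul]
  exact mul_le_mul_of_nonneg_left (hA σ) (abs_nonneg c)

theorem Bdd.neg {x : Obs K} (hx : Bdd x) : Bdd (-x) := by simpa using hx.smul (-1)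

theorem Bdd.sub {x y : Obs K} (hx : Bdd x) (hy : Bdd y) : Bdd (x - y) := by
  simpa [sub_eq_add_neg] using hx.add hy.neg

theorem Bdd.mul {x y : Obs K} (hx : Bdd x) (hy : Bdd y) : Bdd (x * y) := by
  obtain ⟨A, hA⟩ := hx.2
  obtain ⟨B, hB⟩ := hy.2
  refine ⟨hx.1.mul hy.1, A * B, fun σ => ?_⟩
  rw [Pi.mul_apply, abs_mul]
  exact mul_le_mul (hA σ) (hB σ) (abs_nonneg _) ((abs_nonneg _).trans (hA σ))

theorem Bdd.sum {ι : Type*} (s : Finset ι) {x : ι → Obs K} (h : ∀ i ∈ s, Bdd (x i)) :
    Bdd (∑ i ∈ s, x i) := by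
  classical
  induction s using Finset.induction_on with
  | empty => exact Bdd.const (K := K) 0
  | insert a s ha ih =>
    rw [Finset.sum_insert ha]
    exact (h a (Finset.mem_insert_self a s)).add (ih fun i hi => h i (Finset.mem_insert_of_mem hi))

/-- The observable on relabelled replicas. -/
def act (φ : (Fin K → ℕ) → Fin K → ℕ) (x : Obs K) : Obs K :=
  fun σ => x fun a => σ (φ a.1, a.2)

theorem act_mul (φ : (Fin K → ℕ) → Fin K → ℕ) (x y : Obs K) :
    act φ (x * y) = act φ x * act φ y := rfl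

theorem act_sub (φ : (Fin K → ℕ) → Fin K → ℕ) (x y : Obs K) :
    act φ (x - y) = act φ x - act φ y := rfl

theorem measurable_act (φ : (Fin K → ℕ) → Fin K → ℕ) {x : Obs K} (hx : Measurable x) :
    Measurable (act φ x) :=
  hx.comp (measurable_pi_lambda _ fun a => measurable_pi_apply (φ a.1, a.2))

/-- The paths agree above level `g`. -/
def Agree (g : ℕ) (x y : Fin K → ℕ) : Prop := ∀ i : Fin K, (i : ℕ) < g → x i = y i

/-- A relabelling of children by permutations that depend on the node. -/
def permMap (P : Fin K → (Fin K → ℕ) → Equiv.Perm ℕ) (p : Fin K → ℕ) : Fin K → ℕ :=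
  fun l => P l p (p l)

/-- The permutation at a node only depends on the node. -/
def Local (P : Fin K → (Fin K → ℕ) → Equiv.Perm ℕ) : Prop :=
  ∀ (l : Fin K) (p q : Fin K → ℕ), Agree l p q → P l p = P l q

theorem permMap_agree {P : Fin K → (Fin K → ℕ) → Equiv.Perm ℕ} (hP : Local P) (p q : Fin K → ℕ) :
    ∀ g : ℕ, Agree g (permMap P p) (permMap P q) ↔ Agree g p q
  | 0 => by simp [Agree]
  | g + 1 => by
    have ih := permMap_agree hP p q g
    refine ⟨fun h i hi => ?_, fun h i hi => ?_⟩
    · have hg : Agree g p q := ih.1 fun l hl => h l (Nat.lt_succ_of_lt hl)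
      rcases Nat.lt_or_ge (i : ℕ) g with hlt | hge
      · exact hg i hlt
      · have hi' : (i : ℕ) = g := by omega
        have := h i hi
        simp only [permMap] at this
        rw [hP i p q (fun l hl => hg l (hi' ▸ hl))] at this
        exact (P i q).injective this
    · simp only [permMap]
      rw [hP i p q (fun l hl => h l (by omega)), h i hi]

theorem permMap_tree {P : Fin K → (Fin K → ℕ) → Equiv.Perm ℕ} (hP : Local P) :
    IsTreeMap fun a : Pt K => (permMap P a.1, a.2) := by
  refine ⟨fun a b h => ?_, fun a b => ?_⟩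
  · simp only [Prod.mk.injEq] at h
    refine Prod.ext (funext fun l => ?_) h.2
    exact (permMap_agree hP a.1 b.1 K).1 (fun i _ => congrFun h.1 i) l l.isLt
  · unfold com'
    congr 1
    ext l
    simp only [Finset.mem_filter, Finset.mem_univ, true_and]
    have := permMap_agree hP a.1 b.1 ((l : ℕ) + 1)
    simp only [Agree, Nat.lt_succ_iff] at this
    exact this

namespace Arr

variable (A : Arr K)

theorem integrable_of_bdd {F : (Pt K → ℕ → Bool) → ℝ} (hF : Measurable F) {B : ℝ}
    (hB : ∀ σ, |F σ| ≤ B) : Integrable F A.law := by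
  have := A.prob
  exact Integrable.of_bound hF.aestronglyMeasurable B (.of_forall hB)

theorem measurable_site (i : ℕ) :
    Measurable fun (σ : Pt K → ℕ → Bool) (a : Pt K) => σ a i :=
  measurable_pi_lambda _ fun a => (measurable_pi_apply i).comp (measurable_pi_apply a)

theorem integrable_site {x : Obs K} (hx : Bdd x) (i : ℕ) :
    Integrable (fun σ => x fun a => σ a i) A.law := by
  obtain ⟨B, hB⟩ := hx.2
  exact A.integrable_of_bdd (hx.1.comp (measurable_site i)) fun σ => hB _

theorem integrable_two {x y : Obs K} (hx : Bdd x) (hy : Bdd y) (i j : ℕ) :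
    Integrable (fun σ => (x fun a => σ a i) * y fun a => σ a j) A.law := by
  obtain ⟨B, hB⟩ := hx.2
  obtain ⟨C, hC⟩ := hy.2
  refine A.integrable_of_bdd ((hx.1.comp (measurable_site i)).mul (hy.1.comp (measurable_site j)))
    (B := B * C) fun σ => ?_
  rw [abs_mul]
  exact mul_le_mul (hB _) (hC _) (abs_nonneg _) ((abs_nonneg _).trans (hB fun a => σ a i))

/-- Invariance of expectations. -/
theorem integral_relabel {F : (Pt K → ℕ → Bool) → ℝ} (hF : Measurable F) {π : Pt K → Pt K}
    (hπ : IsTreeMap π) {τ : ℕ → ℕ} (hτ : Function.Injective τ) :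
    ∫ σ, F (fun a i => σ (π a) (τ i)) ∂A.law = ∫ σ, F σ ∂A.law := by
  conv_rhs => rw [← A.inv π hπ τ hτ]
  rw [integral_map _ hF.aestronglyMeasurable]
  exact (measurable_pi_lambda _ fun a => measurable_pi_lambda _ fun i =>
    (measurable_pi_apply (τ i)).comp (measurable_pi_apply (π a))).aemeasurable

theorem isTreeMap_id : IsTreeMap (id : Pt K → Pt K) := ⟨Function.injective_id, fun _ _ => rfl⟩

theorem mean_act {P : Fin K → (Fin K → ℕ) → Equiv.Perm ℕ} (hP : Local P) {x : Obs K}
    (hx : Measurable x) : A.mean (act (permMap P) x) = A.mean x :=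
  A.integral_relabel (hx.comp (measurable_site 0)) (permMap_tree hP) Function.injective_id

theorem pair_act {P : Fin K → (Fin K → ℕ) → Equiv.Perm ℕ} (hP : Local P) {x y : Obs K}
    (hx : Measurable x) (hy : Measurable y) :
    A.pair (act (permMap P) x) (act (permMap P) y) = A.pair x y :=
  A.integral_relabel ((hx.comp (measurable_site 0)).mul (hy.comp (measurable_site 1)))
    (permMap_tree hP) Function.injective_id

theorem nrm_act {P : Fin K → (Fin K → ℕ) → Equiv.Perm ℕ} (hP : Local P) {x : Obs K}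
    (hx : Measurable x) : A.nrm (act (permMap P) x) = A.nrm x := by
  rw [nrm, A.pair_act hP hx hx, nrm]

theorem site_eq {x : Obs K} (hx : Measurable x) (i : ℕ) :
    ∫ σ, (x fun a => σ a i) ∂A.law = A.mean x := by
  have := A.integral_relabel (F := fun σ => x fun a => σ a 0) (hx.comp (measurable_site 0))
    isTreeMap_id (Equiv.injective (Equiv.swap 0 i))
  simpa [mean] using this

theorem two_site_eq {x y : Obs K} (hx : Measurable x) (hy : Measurable y) {i j : ℕ} (h : i ≠ j) :
    ∫ σ, (x fun a => σ a i) * (y fun a => σ a j) ∂A.law = A.pair x y := by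
  set τ : ℕ → ℕ := fun n => Equiv.swap (Equiv.swap 0 i 1) j (Equiv.swap 0 i n)
  have h0 : τ 0 = i := by
    simp only [τ, Equiv.swap_apply_left]
    refine Equiv.swap_apply_of_ne_of_ne (fun h' => ?_) h
    have h'' : (0 : ℕ) = 1 := (Equiv.swap 0 i).injective ((Equiv.swap_apply_left 0 i).trans h')
    omega
  have h1 : τ 1 = j := Equiv.swap_apply_left _ _
  have := A.integral_relabel (F := fun σ => (x fun a => σ a 0) * (y fun a => σ a 1))
    ((hx.comp (measurable_site 0)).mul (hy.comp (measurable_site 1)))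
    isTreeMap_id ((Equiv.swap _ _).injective.comp (Equiv.injective (Equiv.swap 0 i)) :
      Function.Injective τ)
  simp only [id, Function.comp_apply] at this
  simp only [τ] at h0 h1
  simp only [h0, h1] at this
  exact this

theorem pair_comm {x y : Obs K} (hx : Measurable x) (hy : Measurable y) :
    A.pair x y = A.pair y x := by
  rw [← A.two_site_eq hx hy one_ne_zero]
  simp only [pair, mul_comm]

theorem pair_add_left {x x' y : Obs K} (hx : Bdd x) (hx' : Bdd x') (hy : Bdd y) :
    A.pair (x + x') y = A.pair x y + A.pair x' y := by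
  simp only [pair, Pi.add_apply, add_mul]
  exact integral_add (A.integrable_two hx hy 0 1) (A.integrable_two hx' hy 0 1)

theorem pair_sub_left {x x' y : Obs K} (hx : Bdd x) (hx' : Bdd x') (hy : Bdd y) :
    A.pair (x - x') y = A.pair x y - A.pair x' y := by
  simp only [pair, Pi.sub_apply, sub_mul]
  exact integral_sub (A.integrable_two hx hy 0 1) (A.integrable_two hx' hy 0 1)

theorem pair_smul_left (c : ℝ) (x y : Obs K) : A.pair (c • x) y = c * A.pair x y := by
  simp only [pair, Pi.smul_apply, smul_eq_mul, mul_assoc]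
  exact integral_const_mul c _

theorem pair_smul_right (c : ℝ) (x y : Obs K) : A.pair x (c • y) = c * A.pair x y := by
  simp only [pair, Pi.smul_apply, smul_eq_mul, mul_left_comm _ c]
  exact integral_const_mul c _

theorem pair_add_right {x y y' : Obs K} (hx : Bdd x) (hy : Bdd y) (hy' : Bdd y') :
    A.pair x (y + y') = A.pair x y + A.pair x y' := by
  simp only [pair, Pi.add_apply, mul_add]
  exact integral_add (A.integrable_two hx hy 0 1) (A.integrable_two hx hy' 0 1)

theorem pair_sub_right {x y y' : Obs K} (hx : Bdd x) (hy : Bdd y) (hy' : Bdd y') :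
    A.pair x (y - y') = A.pair x y - A.pair x y' := by
  simp only [pair, Pi.sub_apply, mul_sub]
  exact integral_sub (A.integrable_two hx hy 0 1) (A.integrable_two hx hy' 0 1)

theorem pair_sum_left {ι : Type*} (s : Finset ι) {x : ι → Obs K} {y : Obs K}
    (hx : ∀ i ∈ s, Bdd (x i)) (hy : Bdd y) :
    A.pair (∑ i ∈ s, x i) y = ∑ i ∈ s, A.pair (x i) y := by
  simp only [pair, Finset.sum_apply, Finset.sum_mul]
  exact integral_finsetSum _ fun i hi => A.integrable_two (hx i hi) hy 0 1

theorem pair_sum_right {ι : Type*} (s : Finset ι) {x : Obs K} {y : ι → Obs K}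
    (hx : Bdd x) (hy : ∀ i ∈ s, Bdd (y i)) :
    A.pair x (∑ i ∈ s, y i) = ∑ i ∈ s, A.pair x (y i) := by
  simp only [pair, Finset.sum_apply, Finset.mul_sum]
  exact integral_finsetSum _ fun i hi => A.integrable_two hx (hy i hi) 0 1

theorem pair_const (c : ℝ) {x : Obs K} (hx : Bdd x) :
    A.pair (fun _ => c) x = c * A.mean x := by
  simp only [pair]
  rw [integral_const_mul, A.site_eq hx.1]

/-- The two-site form is at most the mean square. -/
theorem pair_self_le {x : Obs K} (hx : Bdd x) : A.pair x x ≤ A.mean (x * x) := by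
  have h : 0 ≤ ∫ σ, ((x fun a => σ a 0) - x fun a => σ a 1) ^ 2 ∂A.law :=
    integral_nonneg fun σ => sq_nonneg _
  have he : (fun σ : Pt K → ℕ → Bool => ((x fun a => σ a 0) - x fun a => σ a 1) ^ 2)
      = fun σ => (x fun a => σ a 0) * (x fun a => σ a 0) + (x fun a => σ a 1) * (x fun a => σ a 1)
        - 2 * ((x fun a => σ a 0) * (x fun a => σ a 1)) := by
    funext σ; ring
  have h00 := A.integrable_two hx hx 0 0
  have h11 := A.integrable_two hx hx 1 1
  have hs : Integrable (fun σ => (x fun a => σ a 0) * (x fun a => σ a 0)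
      + (x fun a => σ a 1) * (x fun a => σ a 1)) A.law := h00.add h11
  rw [he, integral_sub hs ((A.integrable_two hx hx 0 1).const_mul 2), integral_add h00 h11,
    integral_const_mul] at h
  have e0 := A.site_eq (x := x * x) (hx.1.mul hx.1) 0
  have e1 := A.site_eq (x := x * x) (hx.1.mul hx.1) 1
  simp only [Pi.mul_apply] at e0 e1
  rw [e0, e1] at h
  simp only [pair]
  linarith

/-- The two-site form is nonnegative. -/
theorem pair_self_nonneg {x : Obs K} (hx : Bdd x) : 0 ≤ A.pair x x := by
  classical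
  have key : ∀ M : ℕ, 0 ≤ ((M : ℝ) * (M - 1)) * A.pair x x + M * A.mean (x * x) := fun M => by
    have h : 0 ≤ ∫ σ, (∑ i ∈ Finset.range M, x fun a => σ a i) ^ 2 ∂A.law :=
      integral_nonneg fun σ => sq_nonneg _
    simp only [sq, Finset.sum_mul_sum] at h
    rw [integral_finsetSum _ fun i _ => integrable_finsetSum _ fun j _ =>
      A.integrable_two hx hx i j] at h
    simp_rw [integral_finsetSum _ fun j _ => A.integrable_two hx hx _ j] at h
    have hval : ∀ i ∈ Finset.range M, ∑ j ∈ Finset.range M,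
        ∫ σ, (x fun a => σ a i) * (x fun a => σ a j) ∂A.law
          = ((M : ℝ) - 1) * A.pair x x + A.mean (x * x) := fun i hi => by
      rw [← Finset.sum_erase_add _ _ hi, Finset.sum_congr rfl fun j hj =>
        A.two_site_eq hx.1 hx.1 (Finset.ne_of_mem_erase hj).symm, Finset.sum_const,
        Finset.card_erase_of_mem hi, Finset.card_range, nsmul_eq_mul,
        Nat.cast_sub (by simp at hi; omega)]
      have := A.site_eq (x := x * x) (hx.1.mul hx.1) i
      simp only [Pi.mul_apply] at this
      rw [this]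
      simp
    rw [Finset.sum_congr rfl hval, Finset.sum_const, Finset.card_range, nsmul_eq_mul] at h
    linarith
  refine le_of_not_gt fun hneg => ?_
  obtain ⟨M, hM⟩ := exists_nat_gt (1 + A.mean (x * x) / -A.pair x x)
  have hm : 0 ≤ A.mean (x * x) := integral_nonneg fun σ => mul_self_nonneg _
  have hM1 : (1 : ℝ) < M := lt_of_le_of_lt
    (le_add_of_nonneg_right (div_nonneg hm (neg_nonneg.2 hneg.le))) hM
  have h1 : A.mean (x * x) < ((M : ℝ) - 1) * -A.pair x x :=
    (div_lt_iff₀ (neg_pos.2 hneg)).1 (by linarith)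
  have := key M
  nlinarith

theorem pair_sq_le {x y : Obs K} (hx : Bdd x) (hy : Bdd y) :
    A.pair x y ^ 2 ≤ A.pair x x * A.pair y y := by
  have h : ∀ t : ℝ, 0 ≤ A.pair y y * (t * t) + (2 * A.pair x y) * t + A.pair x x := fun t => by
    have h1 := A.pair_self_nonneg (hx.add (hy.smul t))
    rw [A.pair_add_left hx (hy.smul t) (hx.add (hy.smul t)), pair_smul_left,
      A.pair_add_right hx hx (hy.smul t), A.pair_add_right hy hx (hy.smul t),
      pair_smul_right, pair_smul_right, A.pair_comm hy.1 hx.1] at h1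
    linarith
  have := discrim_le_zero h
  simp only [discrim] at this
  linarith

theorem nrm_nonneg (x : Obs K) : 0 ≤ A.nrm x := Real.sqrt_nonneg _

theorem nrm_sq {x : Obs K} (hx : Bdd x) : A.nrm x ^ 2 = A.pair x x :=
  Real.sq_sqrt (A.pair_self_nonneg hx)

theorem abs_pair_le {x y : Obs K} (hx : Bdd x) (hy : Bdd y) :
    |A.pair x y| ≤ A.nrm x * A.nrm y := by
  rw [nrm, nrm, ← Real.sqrt_mul (A.pair_self_nonneg hx), ← Real.sqrt_sq_eq_abs]
  exact Real.sqrt_le_sqrt (A.pair_sq_le hx hy)

theorem nrm_add_le {x y : Obs K} (hx : Bdd x) (hy : Bdd y) :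
    A.nrm (x + y) ≤ A.nrm x + A.nrm y := by
  refine Real.sqrt_le_iff.2 ⟨add_nonneg (A.nrm_nonneg x) (A.nrm_nonneg y), ?_⟩
  rw [A.pair_add_left hx hy (hx.add hy), A.pair_add_right hx hx hy, A.pair_add_right hy hx hy,
    A.pair_comm hy.1 hx.1, add_sq, A.nrm_sq hx, A.nrm_sq hy]
  have := (le_abs_self _).trans (A.abs_pair_le hx hy)
  linarith

theorem nrm_smul (c : ℝ) (x : Obs K) : A.nrm (c • x) = |c| * A.nrm x := by
  rw [nrm, pair_smul_left, pair_smul_right, ← mul_assoc, Real.sqrt_mul (mul_self_nonneg c),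
    Real.sqrt_mul_self_eq_abs, nrm]

theorem nrm_sub_comm (x y : Obs K) : A.nrm (x - y) = A.nrm (y - x) := by
  have h := A.nrm_smul (-1) (y - x)
  simpa using h

theorem nrm_triangle {x y z : Obs K} (hx : Bdd x) (hy : Bdd y) (hz : Bdd z) :
    A.nrm (x - z) ≤ A.nrm (x - y) + A.nrm (y - z) := by
  simpa using A.nrm_add_le (hx.sub hy) (hy.sub hz)

theorem nrm_sum_le {ι : Type*} (s : Finset ι) {x : ι → Obs K} (h : ∀ i ∈ s, Bdd (x i)) :
    A.nrm (∑ i ∈ s, x i) ≤ ∑ i ∈ s, A.nrm (x i) := by
  classical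
  induction s using Finset.induction_on with
  | empty => simp [nrm, pair]
  | insert a s ha ih =>
    rw [Finset.sum_insert ha, Finset.sum_insert ha]
    refine (A.nrm_add_le (h a (Finset.mem_insert_self a s))
      (Bdd.sum s fun i hi => h i (Finset.mem_insert_of_mem hi))).trans ?_
    gcongr
    exact ih fun i hi => h i (Finset.mem_insert_of_mem hi)

theorem abs_mean_le {x : Obs K} (hx : Bdd x) : |A.mean x| ≤ A.nrm x := by
  have h := A.abs_pair_le (Bdd.const 1) hx
  rw [A.pair_const 1 hx, one_mul] at h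
  have := A.prob
  simpa [nrm, pair] using h

theorem mean_sub {x y : Obs K} (hx : Bdd x) (hy : Bdd y) :
    A.mean (x - y) = A.mean x - A.mean y := by
  simp only [mean, Pi.sub_apply]
  exact integral_sub (A.integrable_site hx 0) (A.integrable_site hy 0)

theorem nrm_le_one {x : Obs K} (hx : Unit1 x) : A.nrm x ≤ 1 := by
  have := A.prob
  refine Real.sqrt_le_one.2 ((A.pair_self_le hx.bdd).trans ?_)
  refine (integral_mono (A.integrable_site (hx.bdd.mul hx.bdd) 0) (integrable_const 1)
    fun σ => (le_abs_self _).trans ((hx.mul hx).2 _)).trans_eq ?_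
  simp

theorem abs_mean_le_one {x : Obs K} (hx : Unit1 x) : |A.mean x| ≤ 1 :=
  (A.abs_mean_le hx.bdd).trans (A.nrm_le_one hx)

end Arr

end Vale.Agent.P168
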