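import Vale.Agent.P168.Core.Same

/-!
P168: tuples decouple between sites, on average over their levels.
-/

open MeasureTheory Filter Topology

noncomputable section

namespace Vale.Agent.P168

variable {K : ℕ}

/-- Some shift separates a set of levels from its lowering. -/
theorem exists_shift_set (S : Finset ℕ) {J : ℕ} (hS : ∀ l ∈ S, J ≤ l) (hJ : S.card * S.card < J) :
    ∃ j ∈ Finset.Icc 1 J, Disjoint S (S.image (· - j)) := by
  set B := (S ×ˢ S).image fun p : ℕ × ℕ => p.2 - p.1
  have hB : B.card < (Finset.Icc 1 J).card := by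
    refine Finset.card_image_le.trans_lt ?_
    rwa [Finset.card_product, Nat.card_Icc, Nat.add_sub_cancel]
  obtain ⟨j, hj, hjB⟩ := Finset.exists_mem_notMem_of_card_lt_card hB
  refine ⟨j, hj, Finset.disjoint_left.2 fun l hl hl' => ?_⟩
  obtain ⟨l', hl'1, hl'2⟩ := Finset.mem_image.1 hl'
  refine hjB (Finset.mem_image.2 ⟨(l, l'), Finset.mem_product.2 ⟨hl, hl'1⟩, ?_⟩)
  have := hS l' hl'1
  rw [Finset.mem_Icc] at hj
  dsimp only
  omega

namespace Arr

variable (A : Arr K)

theorem nrm_const (c : ℝ) : A.nrm (fun _ => c) = |c| := by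
  have := A.prob
  simp [nrm, pair, Real.sqrt_mul_self_eq_abs]

/-- The centred observable. -/
def centred (x : Obs K) : Obs K := x - fun _ => A.mean x

theorem bdd_centred {x : Obs K} (hx : Bdd x) : Bdd (A.centred x) := hx.sub (Bdd.const _)

theorem nrm_centred_le_two {x : Obs K} (hx : Unit1 x) : A.nrm (A.centred x) ≤ 2 := by
  have h := A.nrm_sub_le hx.bdd (Bdd.const (A.mean x))
  rw [A.nrm_const] at h
  exact h.trans ((add_le_add (A.nrm_le_one hx) (A.abs_mean_le_one hx)).trans_eq
    one_add_one_eq_two)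

theorem fluctuation_le_two (s : Sh) : A.fluctuation s ≤ 2 :=
  A.nrm_centred_le_two (unit_tup s _)

theorem pair_centred {x y : Obs K} (hx : Bdd x) (hy : Bdd y) :
    A.pair (A.centred x) (A.centred y) = A.pair x y - A.mean x * A.mean y := by
  have hc : ∀ c : ℝ, Bdd (fun _ : Pt K → Bool => c) := Bdd.const
  rw [centred, centred, A.pair_sub_left hx (hc _) (hy.sub (hc _)), A.pair_sub_right hx hy (hc _),
    A.pair_sub_right (hc _) hy (hc _), A.pair_const _ hy,
    A.pair_comm hx.1 (hc (A.mean y)).1, A.pair_const _ hx, A.pair_const _ (hc _)]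
  have := A.prob
  simp only [mean, integral_const, probReal_univ, one_smul]
  ring

theorem abs_pair_sub_le {x x' y y' : Obs K} (hx : Unit1 x) (hx' : Unit1 x') (hy : Unit1 y)
    (hy' : Unit1 y') :
    |(A.pair x y - A.mean x * A.mean y) - (A.pair x' y' - A.mean x' * A.mean y')|
      ≤ 2 * A.nrm (x - x') + 2 * A.nrm (y - y') := by
  have e1 : A.pair x y - A.pair x' y' = A.pair (x - x') y + A.pair x' (y - y') := by
    rw [A.pair_sub_left hx.bdd hx'.bdd hy.bdd, A.pair_sub_right hx'.bdd hy.bdd hy'.bdd]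
    ring
  have e2 : A.mean x * A.mean y - A.mean x' * A.mean y'
      = A.mean (x - x') * A.mean y + A.mean x' * A.mean (y - y') := by
    rw [A.mean_sub hx.bdd hx'.bdd, A.mean_sub hy.bdd hy'.bdd]
    ring
  have hdx := hx.bdd.sub hx'.bdd
  have hdy := hy.bdd.sub hy'.bdd
  have b1 : |A.pair (x - x') y| ≤ A.nrm (x - x') := (A.abs_pair_le hdx hy.bdd).trans
    (mul_le_of_le_one_right (A.nrm_nonneg _) (A.nrm_le_one hy))
  have b2 : |A.pair x' (y - y')| ≤ A.nrm (y - y') := (A.abs_pair_le hx'.bdd hdy).trans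
    (mul_le_of_le_one_left (A.nrm_nonneg _) (A.nrm_le_one hx'))
  have b3 : |A.mean (x - x') * A.mean y| ≤ A.nrm (x - x') := by
    rw [abs_mul]
    exact (mul_le_of_le_one_right (abs_nonneg _) (A.abs_mean_le_one hy)).trans (A.abs_mean_le hdx)
  have b4 : |A.mean x' * A.mean (y - y')| ≤ A.nrm (y - y') := by
    rw [abs_mul]
    exact (mul_le_of_le_one_left (abs_nonneg _) (A.abs_mean_le_one hx')).trans (A.abs_mean_le hdy)
  rw [abs_le] at b1 b2 b3 b4 ⊢
  constructor <;> linarith

/-- The cost of spreading one half of a tuple over a window of levels. -/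
def win (a w J : ℕ) (X : Sh) : ℝ :=
  ∑ i ∈ Finset.Icc 1 w, A.step i (a + i) X
    + ∑ j ∈ Finset.Icc 1 J, (∑ i ∈ Finset.Icc 1 w, A.step j (a + i + j) X + A.cost j X)

theorem win_nonneg (a w J : ℕ) (X : Sh) : 0 ≤ A.win a w J X :=
  add_nonneg (Finset.sum_nonneg fun _ _ => A.step_nonneg _ _ _) (Finset.sum_nonneg fun _ _ =>
    add_nonneg (Finset.sum_nonneg fun _ _ => A.step_nonneg _ _ _) (A.cost_nonneg _ _))

theorem sqrt_dev_le_step (j h : ℕ) (X : Sh) :
    2 * √(A.dev X h) ≤ A.step j h X ∧ 2 * √(A.dev (X.lower j) (h - j)) ≤ A.step j h X := by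
  have := Real.sqrt_nonneg (A.dev X h)
  have := Real.sqrt_nonneg (A.dev X (h - j))
  have := Real.sqrt_nonneg (A.corr X h - A.corr X (h - j))
  have := Real.sqrt_nonneg (A.dev (X.lower j) (h - j))
  unfold step
  constructor <;> linarith

/-- Two positions in the window decouple. -/
theorem cov_window {C : ℕ → ℝ} (hA : A.Tel C) {a w J i k : ℕ} {L R : Sh}
    (hW : a + (w + J) < K) (hL : L.Valid K (a + 1 + (w + J))) (hR : R.Valid K (a + 1 + (w + J)))
    (hJ : (L.size + R.size) * (L.size + R.size) < J) (hi : 1 ≤ i) (hik : i < k) (hk : k ≤ w) :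
    |A.pair (duo L R (fun _ => 0) (a + i) 2 3) (duo L R (fun _ => 0) (a + k) 2 3)
        - A.mean (duo L R (fun _ => 0) (a + i) 2 3) * A.mean (duo L R (fun _ => 0) (a + k) 2 3)|
      ≤ (|C (L.size + R.size + L.size + R.size)| + 6)
          * (A.win a w J L + A.win a w J R + gapK K) := by
  set b := a + i with hb
  set b' := a + k with hb'
  set z : Fin K → ℕ := fun _ => 0
  -- the shift
  have hcard : (L.levels ∪ R.levels).card ≤ L.size + R.size :=
    (Finset.card_union_le _ _).trans (add_le_add (Sh.card_levels L).le (Sh.card_levels R).le)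
  obtain ⟨j, hj, hdis⟩ := exists_shift_set (L.levels ∪ R.levels) (J := J) (fun l hl => by
    rcases Finset.mem_union.1 hl with h | h
    · have := hL.levels_ge h; omega
    · have := hR.levels_ge h; omega) ((Nat.mul_le_mul hcard hcard).trans_lt hJ)
  rw [Finset.image_union, ← Sh.levels_lower, ← Sh.levels_lower] at hdis
  have hj' := Finset.mem_Icc.1 hj
  have hLb : L.Valid K (b + 1) := hL.mono (by omega)
  have hRb : R.Valid K (b + 1) := hR.mono (by omega)
  have hLb' : L.Valid K (b' + 1) := hL.mono (by omega)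
  have hRb' : R.Valid K (b' + 1) := hR.mono (by omega)
  have hL1 : L.Valid K (b' + 1 + j) := hL.mono (by omega)
  have hR1 : R.Valid K (b' + 1 + j) := hR.mono (by omega)
  have hL' : (L.lower j).Valid K (b' + 1) := by simpa using hL1.lower (j := j) (by omega)
  have hR' : (R.lower j).Valid K (b' + 1) := by simpa using hR1.lower (j := j) (by omega)
  have hbK : b < K := by omega
  have hbK' : b' < K := by omega
  -- the identity
  have htel := hA.below b b' L R (L.lower j) (R.lower j) (by omega) hLb' hRb hL' hR' hdis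
  simp only [Sh.size_lower] at htel
  have hz : put z b 0 = z := funext fun l => by simp [put, z]
  change |A.pair (duo L R z b 0 1) (duo (L.lower j) (R.lower j) (put z b 0) b' 2 3)
      - A.mean (duo L R z b 0 1) * A.mean (duo (L.lower j) (R.lower j) (put z b 0) b' 2 3)|
    ≤ _ at htel
  rw [hz] at htel
  set f := duo L R z b 0 1
  set g := duo (L.lower j) (R.lower j) z b' 2 3
  set x := duo L R z b 2 3
  set y := duo L R z b' 2 3
  -- the first duo
  have hx : A.nrm (x - f) ≤ 2 * √(A.dev L b) + 2 * √(A.dev R b) := by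
    show A.nrm (tup L (put z b 2) * tup R (put z b 3) - tup L (put z b 0) * tup R (put z b 1)) ≤ _
    rw [show tup L (put z b 2) * tup R (put z b 3) - tup L (put z b 0) * tup R (put z b 1)
      = tup R (put z b 3) * (tup L (put z b 2) - tup L (put z b 0))
        + tup L (put z b 0) * (tup R (put z b 3) - tup R (put z b 1)) by ring]
    refine (A.nrm_add_le ((unit_tup _ _).bdd.mul ((unit_tup _ _).bdd.sub (unit_tup _ _).bdd))
      ((unit_tup _ _).bdd.mul ((unit_tup _ _).bdd.sub (unit_tup _ _).bdd))).trans (add_le_add ?_ ?_)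
    · exact A.op hLb z (unit_tup _ _) (avoid_child hRb z hbK le_rfl (.inl ⟨rfl, by simp⟩))
    · exact A.op hRb z (unit_tup _ _) (avoid_child hLb z hbK le_rfl (.inl ⟨rfl, by simp⟩))
  -- the second duo
  have hy : A.nrm (y - g) ≤ A.cost j L + A.cost j R := by
    show A.nrm (tup L (put z b' 2) * tup R (put z b' 3)
      - tup (L.lower j) (put z b' 2) * tup (R.lower j) (put z b' 3)) ≤ _
    rw [show tup L (put z b' 2) * tup R (put z b' 3)
        - tup (L.lower j) (put z b' 2) * tup (R.lower j) (put z b' 3)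
      = tup R (put z b' 3) * (tup L (put z b' 2) - tup (L.lower j) (put z b' 2))
        + tup (L.lower j) (put z b' 2) * (tup R (put z b' 3) - tup (R.lower j) (put z b' 3)) by ring]
    refine (A.nrm_add_le ((unit_tup _ _).bdd.mul ((unit_tup _ _).bdd.sub (unit_tup _ _).bdd))
      ((unit_tup _ _).bdd.mul ((unit_tup _ _).bdd.sub (unit_tup _ _).bdd))).trans (add_le_add ?_ ?_)
    · refine (A.shift_both j L (put z b' 2) hL1 (by omega) (fun l hl => ?_) (unit_tup _ _) ?_).2
      · rw [put_of_gt z 2 (by omega)]; norm_num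
      · rw [Nat.add_sub_cancel]
        exact avoid_sub hRb' z hbK' (by norm_num)
    · refine (A.shift_both j R (put z b' 3) hR1 (by omega) (fun l hl => ?_) (unit_tup _ _) ?_).2
      · rw [put_of_gt z 3 (by omega)]; norm_num
      · rw [Nat.add_sub_cancel]
        exact avoid_sub hL' z hbK' (by norm_num)
  have hcov := A.abs_pair_sub_le (unit_duo L R z b 2 3) (unit_duo L R z b 0 1)
    (unit_duo L R z b' 2 3) (unit_duo (L.lower j) (R.lower j) z b' 2 3)
  -- into the window
  have hwin : ∀ X : Sh, 2 * √(A.dev X b) ≤ A.win a w J X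
      ∧ A.cost j X ≤ A.win a w J X ∧ √(A.dev (X.lower j) b') ≤ A.win a w J X := fun X => by
    have h1 : A.step i b X ≤ ∑ i ∈ Finset.Icc 1 w, A.step i (a + i) X :=
      Finset.single_le_sum (fun i _ => A.step_nonneg i (a + i) X)
        (Finset.mem_Icc.2 ⟨hi, by omega⟩)
    have h2 : ∑ i ∈ Finset.Icc 1 w, A.step j (a + i + j) X + A.cost j X
        ≤ ∑ j ∈ Finset.Icc 1 J, (∑ i ∈ Finset.Icc 1 w, A.step j (a + i + j) X + A.cost j X) :=
      Finset.single_le_sum (f := fun j =>
        ∑ i ∈ Finset.Icc 1 w, A.step j (a + i + j) X + A.cost j X)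
        (fun j _ => add_nonneg (Finset.sum_nonneg fun _ _ => A.step_nonneg _ _ _)
          (A.cost_nonneg _ _)) hj
    have h3 : A.step j (b' + j) X ≤ ∑ i ∈ Finset.Icc 1 w, A.step j (a + i + j) X :=
      Finset.single_le_sum (fun i _ => A.step_nonneg j (a + i + j) X)
        (Finset.mem_Icc.2 ⟨by omega, hk⟩)
    have h4 := (A.sqrt_dev_le_step i b X).1
    have h5 := (A.sqrt_dev_le_step j (b' + j) X).2
    rw [Nat.add_sub_cancel] at h5
    have := A.cost_nonneg j X
    have := A.step_nonneg i b X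
    have := A.step_nonneg j (b' + j) X
    have := Real.sqrt_nonneg (A.dev (X.lower j) b')
    refine ⟨?_, ?_, ?_⟩ <;> (simp only [win]; linarith)
  obtain ⟨l1, l2, l3⟩ := hwin L
  obtain ⟨r1, r2, r3⟩ := hwin R
  set M := C (L.size + R.size + L.size + R.size)
  have hp0 : 0 ≤ gapK K := by unfold gapK; positivity
  have hM : |A.pair f g - A.mean f * A.mean g|
      ≤ |M| * (A.win a w J L + A.win a w J R + gapK K) :=
    htel.trans ((mul_le_mul_of_nonneg_right (le_abs_self M) (by positivity)).trans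
      (mul_le_mul_of_nonneg_left (by linarith) (abs_nonneg M)))
  have habs := abs_sub_abs_le_abs_sub (A.pair x y - A.mean x * A.mean y)
    (A.pair f g - A.mean f * A.mean g)
  have := A.win_nonneg a w J L
  have := A.win_nonneg a w J R
  linarith

/-- The fluctuation of one tuple through a window of levels below its first branching. -/
theorem fluctuation_window {C : ℕ → ℝ} (hA : A.Tel C) {a w J : ℕ} {L R : Sh}
    (hW : a + (w + J) < K) (hw : 0 < w) (hL : L.Valid K (a + 1 + (w + J)))
    (hR : R.Valid K (a + 1 + (w + J)))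
    (hJ : (L.size + R.size) * (L.size + R.size) < J) {e : ℝ} (he : 0 < e) :
    A.fluctuation (Sh.node a L R) ≤ e + 4 / (w * e)
      + (2 + (|C (L.size + R.size + L.size + R.size)| + 6) / e)
        * (A.win a w J L + A.win a w J R)
      + (|C (L.size + R.size + L.size + R.size)| + 6) / e * gapK K := by
  set z : Fin K → ℕ := fun _ => 0
  set M := |C (L.size + R.size + L.size + R.size)| + 6
  set E := A.win a w J L + A.win a w J R with hE
  have hM : 0 ≤ M := by positivity
  have hp0 : 0 ≤ gapK K := by unfold gapK; positivity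
  have hE0 : 0 ≤ E := add_nonneg (A.win_nonneg _ _ _ _) (A.win_nonneg _ _ _ _)
  set φ := duo L R z a 0 1
  set ψ : ℕ → Obs K := fun i => duo L R z (a + i) 2 3
  have huφ : Unit1 φ := unit_duo _ _ _ _ _ _
  have huψ : ∀ i, Unit1 (ψ i) := fun i => unit_duo _ _ _ _ _ _
  have haK : a < K := by omega
  -- each position is close to the tuple
  have hnear : ∀ i ∈ Finset.Icc 1 w, A.nrm (φ - ψ i)
      ≤ A.step i (a + i) L + A.step i (a + i) R := fun i hi => by
    rw [Finset.mem_Icc] at hi
    have hb : a + i < K := by omega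
    have hLb : L.Valid K (a + i + 1) := hL.mono (by omega)
    have hRb : R.Valid K (a + i + 1) := hR.mono (by omega)
    have hRa : R.Valid K (a + 1) := hR.mono (by omega)
    show A.nrm (tup L (put z a 0) * tup R (put z a 1)
      - tup L (put z (a + i) 2) * tup R (put z (a + i) 3)) ≤ _
    rw [show tup L (put z a 0) * tup R (put z a 1)
        - tup L (put z (a + i) 2) * tup R (put z (a + i) 3)
      = tup R (put z a 1) * (tup L (put z a 0) - tup L (put z (a + i) 2))
        + tup L (put z (a + i) 2) * (tup R (put z a 1) - tup R (put z (a + i) 3)) by ring]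
    refine (A.nrm_add_le ((unit_tup _ _).bdd.mul ((unit_tup _ _).bdd.sub (unit_tup _ _).bdd))
      ((unit_tup _ _).bdd.mul ((unit_tup _ _).bdd.sub (unit_tup _ _).bdd))).trans (add_le_add ?_ ?_)
    · rw [mul_sub, A.nrm_sub_comm, ← mul_sub]
      refine (A.climb hLb (by omega) z (fun _ _ => by norm_num [z]) (unit_tup _ _)
        (avoid_below hRa z haK (by omega) (by norm_num [z]))
        (avoid_child hRa z haK le_rfl (.inl ⟨rfl, by simp⟩))).trans ?_
      simp only [step, Nat.add_sub_cancel]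
      have := Real.sqrt_nonneg (A.dev (L.lower i) a)
      linarith
    · rw [mul_sub, A.nrm_sub_comm, ← mul_sub]
      refine (A.climb hRb (by omega) z (fun _ _ => by norm_num [z]) (unit_tup _ _)
        (avoid_child hLb z hb le_rfl (.inl ⟨rfl, by simp⟩))
        (avoid_child hLb z haK (by omega)
          (.inr ⟨by omega, fun _ _ => by simp [z]⟩))).trans ?_
      simp only [step, Nat.add_sub_cancel]
      have := Real.sqrt_nonneg (A.dev (R.lower i) a)
      linarith
  have hw' : (0 : ℝ) < w := Nat.cast_pos.2 hw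
  have hn : ∑ i ∈ Finset.Icc 1 w, A.nrm (φ - ψ i) ≤ E := by
    refine (Finset.sum_le_sum hnear).trans ?_
    rw [Finset.sum_add_distrib, hE]
    refine add_le_add ?_ ?_ <;>
    · refine le_add_of_nonneg_right (Finset.sum_nonneg fun _ _ => ?_)
      exact add_nonneg (Finset.sum_nonneg fun _ _ => A.step_nonneg _ _ _) (A.cost_nonneg _ _)
  -- the average over the window
  set S := ∑ i ∈ Finset.Icc 1 w, A.centred (ψ i)
  set D := ∑ i ∈ Finset.Icc 1 w, (A.centred φ - A.centred (ψ i))
  have hS : Bdd S := Bdd.sum _ fun i _ => A.bdd_centred (huψ i).bdd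
  have hD : Bdd D := Bdd.sum _ fun i _ => (A.bdd_centred huφ.bdd).sub (A.bdd_centred (huψ i).bdd)
  have hsplit : (w : ℝ) • A.centred φ = D + S := by
    simp only [D, S, Finset.sum_sub_distrib, sub_add_cancel, Finset.sum_const, Nat.card_Icc]
    rw [Nat.add_sub_cancel, Nat.cast_smul_eq_nsmul]
  have hDle : A.nrm D ≤ 2 * E := by
    refine (A.nrm_sum_le _ fun i _ =>
      (A.bdd_centred huφ.bdd).sub (A.bdd_centred (huψ i).bdd)).trans ?_
    refine le_trans (Finset.sum_le_sum (g := fun i => 2 * A.nrm (φ - ψ i)) fun i _ => ?_)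
      ((Finset.mul_sum _ _ _).symm.trans_le (by linarith))
    have hd : Bdd (φ - ψ i) := huφ.bdd.sub (huψ i).bdd
    have e : A.centred φ - A.centred (ψ i) = (φ - ψ i) - fun _ => A.mean (φ - ψ i) := by
      funext σ
      simp only [centred, A.mean_sub huφ.bdd (huψ i).bdd, Pi.sub_apply]
      ring
    rw [e]
    refine (A.nrm_sub_le hd (Bdd.const _)).trans ?_
    rw [A.nrm_const]
    linarith [A.abs_mean_le hd]
  have hSle : A.pair S S ≤ w * w * (M * (E + gapK K)) + w * 4 := by
    simp only [S]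
    rw [A.pair_sum_left _ (fun i _ => A.bdd_centred (huψ i).bdd) hS]
    refine (Finset.sum_le_sum fun i _ =>
      (A.pair_sum_right _ (A.bdd_centred (huψ i).bdd) fun k _ => A.bdd_centred (huψ k).bdd).le).trans ?_
    calc ∑ i ∈ Finset.Icc 1 w, ∑ k ∈ Finset.Icc 1 w, A.pair (A.centred (ψ i)) (A.centred (ψ k))
        ≤ ∑ i ∈ Finset.Icc 1 w, ∑ k ∈ Finset.Icc 1 w,
            (M * (E + gapK K) + if i = k then (4 : ℝ) else 0) := by
          refine Finset.sum_le_sum fun i hi => Finset.sum_le_sum fun k hk => ?_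
          rw [Finset.mem_Icc] at hi hk
          rcases lt_trichotomy i k with h | rfl | h
          · rw [if_neg h.ne, add_zero, A.pair_centred (huψ i).bdd (huψ k).bdd]
            exact (le_abs_self _).trans (A.cov_window hA hW hL hR hJ hi.1 h hk.2)
          · rw [if_pos rfl, ← A.nrm_sq (A.bdd_centred (huψ i).bdd)]
            have := A.nrm_centred_le_two (huψ i)
            have := A.nrm_nonneg (A.centred (ψ i))
            have : 0 ≤ M * (E + gapK K) := by positivity
            nlinarith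
          · rw [if_neg h.ne', add_zero, A.pair_comm (A.bdd_centred (huψ i).bdd).1
              (A.bdd_centred (huψ k).bdd).1, A.pair_centred (huψ k).bdd (huψ i).bdd]
            exact (le_abs_self _).trans (A.cov_window hA hW hL hR hJ hk.1 h hi.2)
      _ = _ := by
          simp only [Finset.sum_add_distrib, Finset.sum_const, Nat.card_Icc, Nat.add_sub_cancel,
            nsmul_eq_mul, Finset.sum_ite_eq]
          rw [Finset.sum_congr rfl fun i hi => if_pos hi]
          simp only [Finset.sum_const, Nat.card_Icc, Nat.add_sub_cancel, nsmul_eq_mul]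
          ring
  have hlin : A.nrm S ≤ w * e + (w * (M * (E + gapK K)) + 4) / e := by
    rw [← sub_nonneg]
    have h1 := A.nrm_sq hS
    have h2 : 0 ≤ A.nrm S := A.nrm_nonneg S
    have h3 : A.nrm S * (w * e) ≤ (w * e) * (w * e) + A.nrm S ^ 2 := by
      nlinarith [sq_nonneg (A.nrm S - w * e)]
    have key : A.nrm S * (w * e) ≤ (w * e + (w * (M * (E + gapK K)) + 4) / e) * (w * e) := by
      rw [add_mul, show (w * (M * (E + gapK K)) + 4) / e * (w * e)
        = w * w * (M * (E + gapK K)) + w * 4 by field_simp]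
      linarith
    exact sub_nonneg.2 (le_of_mul_le_mul_right key (by positivity))
  have hmain : (w : ℝ) * A.fluctuation (Sh.node a L R)
      ≤ 2 * E + (w * e + (w * (M * (E + gapK K)) + 4) / e) := by
    rw [show A.fluctuation (Sh.node a L R) = A.nrm (A.centred φ) from rfl,
      ← abs_of_pos hw', ← A.nrm_smul, hsplit, abs_of_pos hw']
    exact (A.nrm_add_le hD hS).trans (add_le_add hDle hlin)
  refine le_of_mul_le_mul_left (hmain.trans ?_) hw'
  have h2E : 2 * E ≤ w * (2 * E) :=
    le_mul_of_one_le_left (by linarith) (Nat.one_le_cast.2 hw)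
  have e1 : (w : ℝ) * (e + 4 / (w * e) + (2 + M / e) * E + M / e * gapK K)
      = w * (2 * E) + (w * e + (w * (M * (E + gapK K)) + 4) / e) := by
    field_simp
    ring
  rw [e1]
  linarith

theorem sum_step_window {k : ℕ} {c : ℝ}
    (hc : ∀ h, ((shapes K k h).card : ℝ) ≤ c * (K : ℝ) ^ (k - 1)) (hk : 1 ≤ k) (hK : 0 < K)
    {W j i : ℕ} (hji : j ≤ i) (hiW : i ≤ W) {e δ : ℝ} (he : 0 < e) (hδ : 0 ≤ δ)
    (hd : A.dsum k ≤ δ * (K : ℝ) ^ k) :
    ∑ a ∈ Finset.range (K - W), ∑ X ∈ shapes K k (a + 1 + W), A.step j (a + i) X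
      ≤ (10 * c + 3) * (e + (δ + W / K) / e) * (K : ℝ) ^ k := by
  have hc0 : 0 ≤ c := nonneg_of_mul_nonneg_left ((Nat.cast_nonneg _).trans (hc 0)) (by positivity)
  calc _ ≤ ∑ a ∈ Finset.range (K - W), ∑ X ∈ shapes K k (a + i + 1), A.step j (a + i) X :=
        Finset.sum_le_sum fun a _ => Finset.sum_le_sum_of_subset_of_nonneg (shapes_mono (by omega))
          fun X _ _ => A.step_nonneg _ _ X
    _ = ∑ h ∈ (Finset.range (K - W)).image (· + i), ∑ X ∈ shapes K k (h + 1), A.step j h X := by
        rw [Finset.sum_image fun x _ y _ h => Nat.add_right_cancel h]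
    _ ≤ ∑ h ∈ Finset.Ico i K, ∑ X ∈ shapes K k (h + 1), A.step j h X := by
        refine Finset.sum_le_sum_of_subset_of_nonneg (fun h hh => ?_)
          fun h _ _ => Finset.sum_nonneg fun X _ => A.step_nonneg _ _ X
        obtain ⟨a, ha, rfl⟩ := Finset.mem_image.1 hh
        rw [Finset.mem_range] at ha
        exact Finset.mem_Ico.2 ⟨Nat.le_add_left i a, by omega⟩
    _ ≤ 8 * e * (K * (c * (K : ℝ) ^ (k - 1)))
        + (3 * A.dsum k + c * (K : ℝ) ^ (k - 1) * (2 * j)) / e := A.sum_step hc hji he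
    _ ≤ 8 * e * (K * (c * (K : ℝ) ^ (k - 1)))
        + (3 * (δ * (K : ℝ) ^ k) + c * (K : ℝ) ^ (k - 1) * (2 * W)) / e := by
        gcongr
        exact_mod_cast hji.trans hiW
    _ = (8 * c * e + 3 * (δ / e) + 2 * c * ((W / K : ℝ) / e)) * (K : ℝ) ^ k := by
        obtain ⟨k, rfl⟩ := Nat.exists_eq_add_of_le' hk
        have hK' : (0 : ℝ) < K := Nat.cast_pos.2 hK
        rw [Nat.add_sub_cancel, pow_succ]
        field_simp
        ring
    _ ≤ _ := by
        refine mul_le_mul_of_nonneg_right ?_ (by positivity)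
        have a1 : 0 ≤ δ / e := by positivity
        have a2 : 0 ≤ (W / K : ℝ) / e := by positivity
        rw [add_div]
        nlinarith [mul_nonneg hc0 a1, mul_nonneg hc0 a2, mul_nonneg hc0 he.le]

end Arr

/-- The total cost of the windows. -/
theorem sum_win (k : ℕ) (hk : 1 ≤ k) (w J : ℕ) : ∃ Q : ℝ, 0 ≤ Q ∧
    ∀ (K : ℕ) (A : Arr K) (e δ : ℝ), 0 < K → 0 < e → 0 ≤ δ →
      (∀ m, 1 ≤ m → m ≤ k → A.dsum m ≤ δ * (K : ℝ) ^ m) →
      ∑ a ∈ Finset.range (K - (w + J)), ∑ X ∈ shapes K k (a + 1 + (w + J)), A.win a w J X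
        ≤ Q * (e + (δ + (w + J : ℕ) / K) / e) * (K : ℝ) ^ k := by
  obtain ⟨c, hc0, hc⟩ := card_shapes k
  obtain ⟨D, hD0, hD⟩ := sum_cost k
  refine ⟨w * (10 * c + 3) + J * (w * (10 * c + 3) + D), by positivity,
    fun K A e δ hK he hδ hd => ?_⟩
  set S := e + (δ + (w + J : ℕ) / (K : ℝ)) / e
  set B := S * (K : ℝ) ^ k
  have hB : 0 ≤ B := by positivity
  have hst : ∀ i j : ℕ, j ≤ i → i ≤ w + J →
      ∑ a ∈ Finset.range (K - (w + J)), ∑ X ∈ shapes K k (a + 1 + (w + J)), A.step j (a + i) X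
        ≤ (10 * c + 3) * B := fun i j h1 h2 =>
    (A.sum_step_window (fun h => hc K h hK) hk hK h1 h2 he hδ (hd k hk le_rfl)).trans_eq
      (by simp only [B, S]; ring)
  have hco : ∀ j ∈ Finset.Icc 1 J,
      ∑ a ∈ Finset.range (K - (w + J)), ∑ X ∈ shapes K k (a + 1 + (w + J)), A.cost j X ≤ D * B := by
    intro j hj
    rw [Finset.mem_Icc] at hj
    refine (Finset.sum_le_card_nsmul _ _ (D * S * (K : ℝ) ^ (k - 1)) fun a _ => ?_).trans ?_
    · refine (hD K A j (a + 1 + (w + J)) e δ hK (by omega) he hδ fun m h1 h2 => hd m h1 h2.le).trans ?_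
      have : (j : ℝ) ≤ (w + J : ℕ) := Nat.cast_le.2 (by omega)
      simp only [S]
      gcongr
    · rw [Finset.card_range, nsmul_eq_mul]
      refine (mul_le_mul_of_nonneg_right (Nat.cast_le.2 (Nat.sub_le K (w + J)))
        (by positivity)).trans_eq ?_
      obtain ⟨k, rfl⟩ := Nat.exists_eq_add_of_le' hk
      simp only [B, Nat.add_sub_cancel, pow_succ]
      ring
  simp only [Arr.win, Finset.sum_add_distrib]
  have h1 : ∑ a ∈ Finset.range (K - (w + J)), ∑ X ∈ shapes K k (a + 1 + (w + J)),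
      ∑ i ∈ Finset.Icc 1 w, A.step i (a + i) X ≤ w * ((10 * c + 3) * B) := by
    rw [Finset.sum_congr rfl fun a _ => Finset.sum_comm, Finset.sum_comm]
    exact (Finset.sum_le_card_nsmul _ _ _ fun i hi =>
      hst i i le_rfl (by rw [Finset.mem_Icc] at hi; omega)).trans_eq (by simp)
  have h2 : ∑ a ∈ Finset.range (K - (w + J)), ∑ X ∈ shapes K k (a + 1 + (w + J)),
      ∑ j ∈ Finset.Icc 1 J, ∑ i ∈ Finset.Icc 1 w, A.step j (a + i + j) X
        ≤ J * (w * ((10 * c + 3) * B)) := by
    rw [Finset.sum_congr rfl fun a _ => Finset.sum_comm, Finset.sum_comm]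
    refine (Finset.sum_le_card_nsmul _ _ ((w : ℝ) * ((10 * c + 3) * B)) fun j hj => ?_).trans_eq
      (by simp)
    rw [Finset.sum_congr rfl fun a _ => Finset.sum_comm, Finset.sum_comm]
    refine (Finset.sum_le_card_nsmul _ _ ((10 * c + 3) * B) fun i hi => ?_).trans_eq (by simp)
    rw [Finset.mem_Icc] at hi hj
    simpa only [add_assoc] using hst (i + j) j (Nat.le_add_left j i) (by omega)
  have h3 : ∑ a ∈ Finset.range (K - (w + J)), ∑ X ∈ shapes K k (a + 1 + (w + J)),
      ∑ j ∈ Finset.Icc 1 J, A.cost j X ≤ J * (D * B) := by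
    rw [Finset.sum_congr rfl fun a _ => Finset.sum_comm, Finset.sum_comm]
    exact (Finset.sum_le_card_nsmul _ _ _ hco).trans_eq (by simp)
  simp only [B] at h1 h2 h3
  linarith

/-- The tuples with a given size of the first half. -/
theorem decouple_split (C : ℕ → ℝ) {n k : ℕ} (hk : k ∈ Finset.Ico 1 n) {ε : ℝ} (hε : 0 < ε) :
    ∀ᶠ K in atTop, ∀ A : Arr K, A.Tel C → ∑ a ∈ Finset.range K,
      ∑ L ∈ shapes K k (a + 1), ∑ R ∈ shapes K (n - k) (a + 1), A.fluctuation (Sh.node a L R)
        ≤ ε * (K : ℝ) ^ (n - 1) := by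
  rw [Finset.mem_Ico] at hk
  obtain ⟨c, hc0, hc⟩ := card_shapes k
  obtain ⟨c', hc0', hc'⟩ := card_shapes (n - k)
  obtain ⟨d, hd0, hd⟩ := card_top k
  obtain ⟨d', hd0', hd'⟩ := card_top (n - k)
  set M := |C (n + n)| + 6
  have hM : 0 ≤ M := by positivity
  set J := n * n + 1
  set e := ε / (8 * (c * c' + 1))
  have he : 0 < e := by positivity
  obtain ⟨w, hw⟩ := exists_nat_gt (16 * (c * c') / (e * ε))
  have hw0 : 0 < w := Nat.cast_pos.1 ((by positivity : (0 : ℝ) ≤ _).trans_lt hw)
  obtain ⟨Q, hQ0, hQ⟩ := sum_win k hk.1 w J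
  obtain ⟨Q', hQ0', hQ'⟩ := sum_win (n - k) (by omega) w J
  set P := (2 + M / e) * (Q * c' + c * Q')
  have hP : 0 ≤ P := by positivity
  set e' := ε / (8 * (P + 1))
  have he' : 0 < e' := by positivity
  set δ := e' ^ 2
  have hev : ∀ᶠ K in atTop, ∀ m ∈ Finset.Icc 1 n, ∀ A : Arr K, A.Tel C →
      A.dsum m ≤ δ * (K : ℝ) ^ m :=
    (Finset.eventually_all (Finset.Icc 1 n)).2 fun m hm =>
      Arr.dsum_small C m (Finset.mem_Icc.1 hm).1 δ (by positivity)
  set W := w + J with hW
  set R0 : ℕ → ℝ := fun K => 2 * (d * c' + c * d' + c * c') * W * (1 / (K : ℝ))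
    + (e + 4 / (w * e)) * (c * c') + M / e * (c * c') * (1 / (K : ℝ))
    + P * (e' + (δ + W * (1 / (K : ℝ))) / e')
  have hR : ∀ᶠ K in atTop, R0 K ≤ ε := by
    have hlim : Tendsto R0 atTop (𝓝 (2 * (d * c' + c * d' + c * c') * W * 0
        + (e + 4 / (w * e)) * (c * c') + M / e * (c * c') * 0
        + P * (e' + (δ + W * 0) / e'))) := by
      have h0 := tendsto_one_div_atTop_nhds_zero_nat (𝕜 := ℝ)
      exact (((h0.const_mul _).add tendsto_const_nhds).add (h0.const_mul _)).add
        (((tendsto_const_nhds.add (h0.const_mul _)).div_const _).const_add _ |>.const_mul _)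
    refine hlim.eventually_le_const ?_
    have hw' : (0 : ℝ) < w := Nat.cast_pos.2 hw0
    have h1 : e * (8 * (c * c' + 1)) = ε := div_mul_cancel₀ _ (by positivity)
    have h2 : e' * (8 * (P + 1)) = ε := div_mul_cancel₀ _ (by positivity)
    have h3 : δ / e' = e' := by simp only [δ, sq]; field_simp
    have h4 : 4 / (w * e) * (c * c') ≤ ε / 4 := by
      rw [div_lt_iff₀ (by positivity)] at hw
      rw [div_mul_eq_mul_div, div_le_iff₀ (by positivity)]
      linarith
    simp only [mul_zero, zero_add, add_zero, h3]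
    nlinarith
  filter_upwards [hev, hR, eventually_gt_atTop 0] with K hsm hRK hK0 A hA
  have hK : (0 : ℝ) < K := Nat.cast_pos.2 hK0
  set p := gapK K
  have hp0 : 0 ≤ p := by simp only [p, gapK]; positivity
  have hpK : p ≤ 1 / (K : ℝ) := by
    simp only [p, gapK]
    exact one_div_le_one_div_of_le hK (by linarith)
  set U := (K : ℝ) ^ (k - 1)
  set V := (K : ℝ) ^ (n - k - 1)
  have hKU : (K : ℝ) ^ k = K * U := by simp only [U]; rw [← pow_succ', Nat.sub_add_cancel hk.1]
  have hKV : (K : ℝ) ^ (n - k) = K * V := by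
    simp only [V]; rw [← pow_succ', Nat.sub_add_cancel (by omega : 1 ≤ n - k)]
  have hUV : (K : ℝ) ^ (n - 1) = K * (U * V) := by
    simp only [U, V]; rw [← pow_add, ← pow_succ']; congr 1; omega
  set F := fun (a : ℕ) (L R : Sh) => A.fluctuation (Sh.node a L R)
  have hF2 : ∀ a (s t : Finset Sh),
      ∑ L ∈ s, ∑ R ∈ t, F a L R ≤ 2 * ((s.card : ℝ) * t.card) := fun a s t => by
    refine (Finset.sum_le_sum fun L _ => Finset.sum_le_sum fun R _ =>
      A.fluctuation_le_two (Sh.node a L R)).trans_eq ?_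
    simp only [Finset.sum_const, nsmul_eq_mul]
    ring
  -- the last nodes
  rw [← Finset.sum_range_add_sum_Ico _ (Nat.sub_le K W)]
  have hlast : ∑ a ∈ Finset.Ico (K - W) K, ∑ L ∈ shapes K k (a + 1),
      ∑ R ∈ shapes K (n - k) (a + 1), F a L R ≤ W * (2 * (c * U * (c' * V))) := by
    refine (Finset.sum_le_card_nsmul _ _ (2 * (c * U * (c' * V))) fun a _ =>
      (hF2 a _ _).trans (mul_le_mul_of_nonneg_left (mul_le_mul (hc K _ hK0) (hc' K _ hK0)
        (Nat.cast_nonneg _) (by positivity)) zero_le_two)).trans ?_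
    rw [Nat.card_Ico, nsmul_eq_mul]
    exact mul_le_mul_of_nonneg_right (Nat.cast_le.2 (by omega)) (by positivity)
  -- one node
  have hnode : ∀ a ∈ Finset.range (K - W), ∑ L ∈ shapes K k (a + 1),
      ∑ R ∈ shapes K (n - k) (a + 1), F a L R
        ≤ 2 * ((shapes K k (a + 1) \ shapes K k (a + 1 + W)).card * (c' * V))
          + 2 * (c * U * (shapes K (n - k) (a + 1) \ shapes K (n - k) (a + 1 + W)).card)
          + ((e + 4 / (w * e) + M / e * p) * (c * U * (c' * V))
            + (2 + M / e) * ((∑ L ∈ shapes K k (a + 1 + W), A.win a w J L) * (c' * V)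
              + c * U * ∑ R ∈ shapes K (n - k) (a + 1 + W), A.win a w J R)) := by
    intro a ha
    rw [Finset.mem_range] at ha
    rw [← Finset.sum_sdiff (shapes_mono (Nat.le_add_right (a + 1) W))]
    have t1 : ∑ L ∈ shapes K k (a + 1) \ shapes K k (a + 1 + W), ∑ R ∈ shapes K (n - k) (a + 1),
        F a L R ≤ 2 * ((shapes K k (a + 1) \ shapes K k (a + 1 + W)).card * (c' * V)) :=
      (hF2 a _ _).trans (mul_le_mul_of_nonneg_left
        (mul_le_mul_of_nonneg_left (hc' K _ hK0) (Nat.cast_nonneg _)) zero_le_two)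
    have e2 : ∀ L, ∑ R ∈ shapes K (n - k) (a + 1), F a L R
        = ∑ R ∈ shapes K (n - k) (a + 1) \ shapes K (n - k) (a + 1 + W), F a L R
          + ∑ R ∈ shapes K (n - k) (a + 1 + W), F a L R := fun L =>
      (Finset.sum_sdiff (shapes_mono (Nat.le_add_right (a + 1) W))).symm
    rw [Finset.sum_congr rfl fun L (_ : L ∈ shapes K k (a + 1 + W)) => e2 L,
      Finset.sum_add_distrib]
    have t2 : ∑ L ∈ shapes K k (a + 1 + W),
        ∑ R ∈ shapes K (n - k) (a + 1) \ shapes K (n - k) (a + 1 + W), F a L R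
          ≤ 2 * (c * U * (shapes K (n - k) (a + 1) \ shapes K (n - k) (a + 1 + W)).card) :=
      (hF2 a _ _).trans (mul_le_mul_of_nonneg_left
        (mul_le_mul_of_nonneg_right (hc K _ hK0) (Nat.cast_nonneg _)) zero_le_two)
    have hpt : ∀ L ∈ shapes K k (a + 1 + W), ∀ R ∈ shapes K (n - k) (a + 1 + W), F a L R
        ≤ (e + 4 / (w * e) + M / e * p) + (2 + M / e) * A.win a w J L
          + (2 + M / e) * A.win a w J R := fun L hL R hR => by
      rw [mem_shapes] at hL hR
      have hs : L.size + R.size = n := by rw [hL.2, hR.2]; omega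
      have h := A.fluctuation_window hA (a := a) (w := w) (J := J) (by omega) hw0 hL.1 hR.1
        (by rw [hs]; exact Nat.lt_succ_self _) he
      rw [show L.size + R.size + L.size + R.size = n + n by omega] at h
      simp only [F]
      linarith
    have t3 : ∑ L ∈ shapes K k (a + 1 + W), ∑ R ∈ shapes K (n - k) (a + 1 + W), F a L R
        ≤ (e + 4 / (w * e) + M / e * p) * (c * U * (c' * V))
          + (2 + M / e) * ((∑ L ∈ shapes K k (a + 1 + W), A.win a w J L) * (c' * V)
            + c * U * ∑ R ∈ shapes K (n - k) (a + 1 + W), A.win a w J R) := by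
      refine (Finset.sum_le_sum fun L hL => Finset.sum_le_sum (hpt L hL)).trans ?_
      simp only [Finset.sum_add_distrib, Finset.sum_const, nsmul_eq_mul, ← Finset.mul_sum]
      have hcL := hc K (a + 1 + W) hK0
      have hcR := hc' K (a + 1 + W) hK0
      have hwL := Finset.sum_nonneg fun L (_ : L ∈ shapes K k (a + 1 + W)) => A.win_nonneg a w J L
      have hwR := Finset.sum_nonneg fun R (_ : R ∈ shapes K (n - k) (a + 1 + W)) =>
        A.win_nonneg a w J R
      have q : 0 ≤ e + 4 / (w * e) + M / e * p := by positivity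
      have q' : 0 ≤ 2 + M / e := by positivity
      have r1 := mul_le_mul_of_nonneg_left (mul_le_mul hcL hcR (Nat.cast_nonneg _)
        (by positivity)) q
      have r2 := mul_le_mul_of_nonneg_left (mul_le_mul_of_nonneg_left hcR hwL) q'
      have r3 := mul_le_mul_of_nonneg_left (mul_le_mul_of_nonneg_right hcL hwR) q'
      linarith
    linarith
  have hsd : ∀ (m : ℕ) {dm : ℝ}, 0 ≤ dm →
      (∀ K g J : ℕ, 0 < K → ((shapes K m g \ shapes K m (g + J)).card : ℝ) * K
        ≤ dm * J * (K : ℝ) ^ (m - 1)) →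
      ∑ a ∈ Finset.range (K - W), ((shapes K m (a + 1) \ shapes K m (a + 1 + W)).card : ℝ)
        ≤ dm * W * (K : ℝ) ^ (m - 1) := fun m dm hdm h => by
    refine le_of_mul_le_mul_right ?_ hK
    rw [Finset.sum_mul]
    refine (Finset.sum_le_card_nsmul _ _ _ fun a _ => h K (a + 1) W hK0).trans ?_
    rw [nsmul_eq_mul, Finset.card_range, mul_comm]
    exact mul_le_mul_of_nonneg_left (Nat.cast_le.2 (Nat.sub_le _ _)) (by positivity)
  set S := e' + (δ + (W : ℝ) / K) / e'
  have w1 := hQ K A e' δ hK0 he' (by positivity)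
    fun m h1 h2 => hsm m (Finset.mem_Icc.2 ⟨h1, by omega⟩) A hA
  have w2 := hQ' K A e' δ hK0 he' (by positivity)
    fun m h1 h2 => hsm m (Finset.mem_Icc.2 ⟨h1, by omega⟩) A hA
  rw [hKU] at w1
  rw [hKV] at w2
  calc _ ≤ (2 * ((d * W * U) * (c' * V)) + 2 * (c * U * (d' * W * V))
        + (K * ((e + 4 / (w * e) + M / e * (1 / (K : ℝ))) * (c * U * (c' * V)))
          + (2 + M / e) * ((Q * S * (K * U)) * (c' * V) + c * U * (Q' * S * (K * V)))))
        + W * (2 * (c * U * (c' * V))) := by
        refine add_le_add ((Finset.sum_le_sum hnode).trans ?_) hlast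
        simp only [Finset.sum_add_distrib, Finset.sum_const, Finset.card_range, nsmul_eq_mul,
          ← Finset.mul_sum, ← Finset.sum_mul]
        gcongr
        · exact hsd k hd0 hd
        · exact hsd (n - k) hd0' hd'
        · exact Nat.sub_le _ _
    _ = R0 K * (K : ℝ) ^ (n - 1) := by
        simp only [R0, P, S, hUV]
        field_simp
        ring
    _ ≤ ε * (K : ℝ) ^ (n - 1) := mul_le_mul_of_nonneg_right hRK (by positivity)

/-- Tuples of every size decouple between sites. -/
theorem decoupling : Decoupling := by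
  intro C n hn ε hε
  rcases Nat.lt_or_ge n 2 with h | h
  · obtain rfl : n = 1 := by omega
    refine ⟨0, fun K _ A hA => ?_⟩
    rw [shapes_one, Finset.sum_singleton, hA.one]
    positivity
  have hev : ∀ᶠ K in atTop, ∀ k ∈ Finset.Ico 1 n, ∀ A : Arr K, A.Tel C → ∑ a ∈ Finset.range K,
      ∑ L ∈ shapes K k (a + 1), ∑ R ∈ shapes K (n - k) (a + 1), A.fluctuation (Sh.node a L R)
        ≤ ε / n * (K : ℝ) ^ (n - 1) :=
    (Finset.eventually_all (Finset.Ico 1 n)).2 fun k hk => decouple_split C hk (by positivity)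
  obtain ⟨K0, hK0⟩ := eventually_atTop.1 hev
  refine ⟨K0, fun K hK A hA => ?_⟩
  rw [sum_shapes h, ← Finset.range_eq_Ico]
  refine (Finset.sum_le_card_nsmul _ _ _ fun k hk => hK0 K hK k hk A hA).trans ?_
  rw [Nat.card_Ico, nsmul_eq_mul, ← mul_assoc]
  refine mul_le_mul_of_nonneg_right ?_ (by positivity)
  rw [mul_div_left_comm]
  refine mul_le_of_le_one_right hε.le ?_
  rw [div_le_one (by positivity)]
  exact Nat.cast_le.2 (Nat.sub_le n 1)

end Vale.Agent.P168
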