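import Vale.Agent.P168.Core.Basic

/-!
P168: tuples of replicas under relabellings, and the cost of moving one tuple inside the tree.
-/

open MeasureTheory Filter Topology

noncomputable section

namespace Vale.Agent.P168

variable {K : ℕ}

theorem Sh.Valid.mono : ∀ {s : Sh} {g g' : ℕ}, s.Valid K g → g' ≤ g → s.Valid K g'
  | .leaf, _, _, _, _ => trivial
  | .node _ _ _, _, _, h, hg => ⟨hg.trans h.1, h.2⟩

theorem put_of_lt (x : Fin K → ℕ) {a : ℕ} (j : ℕ) {l : Fin K} (h : (l : ℕ) < a) :
    put x a j l = x l := if_pos h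

theorem put_of_eq (x : Fin K → ℕ) {a : ℕ} (j : ℕ) {l : Fin K} (h : (l : ℕ) = a) :
    put x a j l = j := by simp [put, h]

theorem put_of_gt (x : Fin K → ℕ) {a : ℕ} (j : ℕ) {l : Fin K} (h : a < (l : ℕ)) :
    put x a j l = 0 := by simp [put, h.not_gt, h.ne']

theorem agree_put (x : Fin K → ℕ) {a g : ℕ} (j : ℕ) (h : g ≤ a) : Agree g (put x a j) x :=
  fun _ hl => put_of_lt x j (hl.trans_le h)

theorem Agree.mono {g g' : ℕ} {x y : Fin K → ℕ} (h : Agree g x y) (hg : g' ≤ g) :
    Agree g' x y := fun i hi => h i (hi.trans_le hg)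

theorem Agree.trans {g : ℕ} {x y z : Fin K → ℕ} (h : Agree g x y) (h' : Agree g y z) :
    Agree g x z := fun i hi => (h i hi).trans (h' i hi)

theorem Agree.symm {g : ℕ} {x y : Fin K → ℕ} (h : Agree g x y) : Agree g y x :=
  fun i hi => (h i hi).symm

theorem unit_tup : ∀ (s : Sh) (x : Fin K → ℕ), Unit1 (tup s x)
  | .leaf, x => ⟨by
      have : Measurable sgn := measurable_of_finite sgn
      exact this.comp (measurable_pi_apply (x, 0)), fun σ => by
      cases h : σ (x, 0) <;> simp [tup, sgn, h]⟩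
  | .node h L R, x => (unit_tup L (put x h 0)).mul (unit_tup R (put x h 1))

theorem unit_duo (s t : Sh) (x : Fin K → ℕ) (a i j : ℕ) : Unit1 (duo s t x a i j) :=
  (unit_tup s (put x a i)).mul (unit_tup t (put x a j))

theorem unit_tupF : ∀ (i j : ℕ) (s : Sh) (x : Fin K → ℕ), Unit1 (tupF i j s x)
  | _, _, .leaf, x => unit_tup .leaf x
  | i, j, .node h L R, x => (unit_tup L (put x h i)).mul (unit_tup R (put x h j))

theorem avoid_tup {S : Set (Fin K → ℕ)} : ∀ (s : Sh) {g : ℕ} (x : Fin K → ℕ), s.Valid K g →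
    (∀ w, Agree g w x → w ∉ S) → Avoid S (tup s x)
  | .leaf, _, x, _, hS => fun σ σ' h => by
    simp only [tup]
    rw [h (x, 0) (hS x fun _ _ => rfl)]
  | .node h L R, g, x, hv, hS => fun σ σ' hσ => by
    simp only [tup]
    rw [avoid_tup L (put x h 0) hv.2.2.1 (fun w hw => hS w
        ((hw.mono (Nat.le_succ_of_le hv.1)).trans (agree_put x 0 hv.1))) σ σ' hσ,
      avoid_tup R (put x h 1) hv.2.2.2 (fun w hw => hS w
        ((hw.mono (Nat.le_succ_of_le hv.1)).trans (agree_put x 1 hv.1))) σ σ' hσ]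

theorem Avoid.mul {S : Set (Fin K → ℕ)} {x y : Obs K} (hx : Avoid S x) (hy : Avoid S y) :
    Avoid S (x * y) := fun σ σ' h => by simp only [Pi.mul_apply, hx σ σ' h, hy σ σ' h]

theorem Avoid.mono {S S' : Set (Fin K → ℕ)} {x : Obs K} (hx : Avoid S x) (h : S' ⊆ S) :
    Avoid S' x := fun σ σ' hσ => hx σ σ' fun a ha => hσ a fun h' => ha (h h')

theorem act_avoid {S : Set (Fin K → ℕ)} {x : Obs K} (hx : Avoid S x)
    {φ : (Fin K → ℕ) → Fin K → ℕ} (hφ : ∀ w, w ∉ S → φ w = w) : act φ x = x :=
  funext fun σ => hx _ _ fun a ha => by rw [hφ a.1 ha]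

/-- Relabellings above the level of a tuple move the tuple. -/
theorem act_tup {P : Fin K → (Fin K → ℕ) → Equiv.Perm ℕ} (hP : Local P) : ∀ (s : Sh) {g : ℕ}
    (x : Fin K → ℕ), s.Valid K g →
    (∀ w, Agree g w x → ∀ l : Fin K, g ≤ (l : ℕ) → P l w = 1) →
    act (permMap P) (tup s x) = tup s (permMap P x)
  | .leaf, _, x, _, _ => rfl
  | .node h L R, g, x, hv, hl => by
    have key : ∀ i, permMap P (put x h i) = put (permMap P x) h i := fun i => funext fun l => by
      simp only [permMap]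
      rcases lt_trichotomy (l : ℕ) h with hlt | heq | hgt
      · rw [put_of_lt _ _ hlt, put_of_lt _ _ hlt, hP l _ x (agree_put x i hlt.le)]
        rfl
      · rw [hl _ (agree_put x i hv.1) l (heq ▸ hv.1), put_of_eq _ _ heq, put_of_eq _ _ heq]
        rfl
      · rw [hl _ (agree_put x i hv.1) l (hv.1.trans hgt.le), put_of_gt _ _ hgt, put_of_gt _ _ hgt]
        rfl
    have hrec : ∀ i w, Agree (h + 1) w (put x h i) → ∀ l : Fin K, h + 1 ≤ (l : ℕ) → P l w = 1 :=
      fun i w hw l hl' => hl w ((hw.mono (Nat.le_succ_of_le hv.1)).trans (agree_put x i hv.1)) l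
        (hv.1.trans (by omega))
    show act (permMap P) (tup L (put x h 0) * tup R (put x h 1)) = _
    rw [act_mul, act_tup hP L _ hv.2.2.1 (hrec 0), act_tup hP R _ hv.2.2.2 (hrec 1), key, key]
    rfl

/-- The paths through given children of the node at level `h` on `y`. -/
def Kid (y : Fin K → ℕ) (h : ℕ) (J : Set ℕ) : Set (Fin K → ℕ) :=
  {p | Agree h p y ∧ ∀ l : Fin K, (l : ℕ) = h → p l ∈ J}

open Classical in
/-- A permutation of the children of one node. -/
def kids (y : Fin K → ℕ) (h : ℕ) (σ : Equiv.Perm ℕ) : Fin K → (Fin K → ℕ) → Equiv.Perm ℕ :=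
  fun l p => if (l : ℕ) = h ∧ Agree h p y then σ else 1

theorem local_kids (y : Fin K → ℕ) (h : ℕ) (σ : Equiv.Perm ℕ) : Local (kids y h σ) := by
  intro l p q hpq
  unfold kids
  by_cases hl : (l : ℕ) = h
  · have : Agree h p y ↔ Agree h q y := by
      rw [← hl]
      exact ⟨fun H => hpq.symm.trans H, fun H => hpq.trans H⟩
    classical
    exact if_congr (and_congr_right fun _ => this) rfl rfl
  · simp [hl]

theorem kids_fix {y : Fin K → ℕ} {h : ℕ} {σ : Equiv.Perm ℕ} {J : Set ℕ}
    (hσ : ∀ n, n ∉ J → σ n = n) : ∀ w, w ∉ Kid y h J → permMap (kids y h σ) w = w := by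
  intro w hw
  funext l
  simp only [permMap, kids]
  split_ifs with hl
  · refine hσ _ fun hJ => hw ⟨hl.2, fun l' hl' => ?_⟩
    rwa [Fin.ext (hl'.trans hl.1.symm : (l' : ℕ) = l)]
  · rfl

theorem act_kids {s : Sh} {h : ℕ} (hs : s.Valid K (h + 1)) (y : Fin K → ℕ) (σ : Equiv.Perm ℕ)
    (i : ℕ) : act (permMap (kids y h σ)) (tup s (put y h i)) = tup s (put y h (σ i)) := by
  rw [act_tup (local_kids y h σ) s _ hs (fun w _ l hl => by simp [kids, (show (l : ℕ) ≠ h by omega)])]
  congr 1
  funext l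
  simp only [permMap, kids]
  rcases lt_trichotomy (l : ℕ) h with hlt | heq | hgt
  · simp [hlt.ne, put_of_lt _ _ hlt]
  · simp [heq, agree_put y i le_rfl, put_of_eq _ _ heq]
  · simp [hgt.ne', put_of_gt _ _ hgt]

/-- A permutation of the naturals extending finitely many prescribed values. -/
theorem exists_perm : ∀ (n : ℕ) (f g : Fin n → ℕ), Function.Injective f → Function.Injective g →
    ∃ σ : Equiv.Perm ℕ, (∀ i, σ (f i) = g i) ∧ ∀ m, (∀ i, m ≠ f i ∧ m ≠ g i) → σ m = m
  | 0, _, _, _, _ => ⟨1, fun i => i.elim0, fun _ _ => rfl⟩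
  | n + 1, f, g, hf, hg => by
    obtain ⟨σ, h1, h2⟩ := exists_perm n (fun i => f i.succ) (fun i => g i.succ)
      (hf.comp (Fin.succ_injective _)) (hg.comp (Fin.succ_injective _))
    refine ⟨Equiv.swap (σ (f 0)) (g 0) * σ, fun j => ?_, fun m hm => ?_⟩
    · refine Fin.cases (Equiv.swap_apply_left _ _) (fun i => ?_) j
      rw [Equiv.Perm.mul_apply, h1]
      refine Equiv.swap_apply_of_ne_of_ne (fun h => ?_) (fun h => ?_)
      · exact Fin.succ_ne_zero i (hf (σ.injective ((h1 i).trans h)))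
      · exact Fin.succ_ne_zero i (hg h)
    · have hm' := h2 m fun i => hm i.succ
      rw [Equiv.Perm.mul_apply, hm']
      exact Equiv.swap_apply_of_ne_of_ne
        (fun h => (hm 0).1 (σ.injective (hm'.trans h))) (hm 0).2

open Classical in
/-- The nodes of the path `y` sent to the root path, with given permutations. -/
def along (y : Fin K → ℕ) (e : ℕ → Equiv.Perm ℕ) : Fin K → (Fin K → ℕ) → Equiv.Perm ℕ :=
  fun l p => if Agree l p y then e l else 1

theorem local_along (y : Fin K → ℕ) (e : ℕ → Equiv.Perm ℕ) : Local (along y e) := by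
  intro l p q hpq
  have : Agree (l : ℕ) p y ↔ Agree (l : ℕ) q y :=
    ⟨fun H => hpq.symm.trans H, fun H => hpq.trans H⟩
  classical
  simp only [along]
  exact if_congr this rfl rfl

namespace Arr

variable (A : Arr K)

/-- Mean product at one site of two tuples in different children of a node at level `g`. -/
def corr (s : Sh) (g : ℕ) : ℝ := A.mean (duo s s (fun _ => 0) g 0 1)

theorem dev_nonneg (s : Sh) (a : ℕ) : 0 ≤ A.dev s a := A.nrm_nonneg _

theorem duo_distinct {s : Sh} {h : ℕ} (hs : s.Valid K (h + 1)) (y : Fin K → ℕ) {f : Fin 4 → ℕ}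
    (hf : Function.Injective f) :
    A.nrm (duo s s y h (f 0) (f 1) - duo s s y h (f 2) (f 3)) = A.dev s h := by
  set e : ℕ → Equiv.Perm ℕ := fun l => if hl : l < h ∧ l < K then Equiv.swap (y ⟨l, hl.2⟩) 0 else 1
  have hmove : ∀ i, act (permMap (along y e)) (tup s (put y h i))
      = tup s (put (fun _ => 0) h i) := fun i => by
    rw [act_tup (local_along y e) s _ hs (fun w _ l hl => by
      simp [along, e, (show ¬(l : ℕ) < h by omega)])]
    congr 1
    funext l
    simp only [permMap, along, e]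
    rcases lt_trichotomy (l : ℕ) h with hlt | heq | hgt
    · rw [put_of_lt _ _ hlt, put_of_lt _ _ hlt, if_pos (agree_put y i hlt.le), dif_pos ⟨hlt, l.isLt⟩]
      simp
    · rw [put_of_eq _ _ heq, put_of_eq _ _ heq]
      simp [heq]
    · rw [put_of_gt _ _ hgt, put_of_gt _ _ hgt]
      simp [hgt.not_gt]
  obtain ⟨σ, hσ, -⟩ := exists_perm 4 f Fin.val hf Fin.val_injective
  have hd : ∀ (x : Fin K → ℕ) (a b c d : ℕ), Measurable (duo s s x h a b - duo s s x h c d) :=
    fun x a b c d => ((unit_duo s s x h a b).bdd.sub (unit_duo s s x h c d).bdd).1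
  rw [← A.nrm_act (local_kids y h σ) (hd _ _ _ _ _),
    ← A.nrm_act (local_along y e) (measurable_act _ (hd _ _ _ _ _))]
  change A.nrm (act (permMap (along y e)) (act (permMap (kids y h σ))
    (tup s (put y h (f 0)) * tup s (put y h (f 1)) - tup s (put y h (f 2)) * tup s (put y h (f 3)))))
    = _
  simp only [act_sub, act_mul, act_kids hs, hσ, hmove, Fin.val_zero, Fin.val_one]
  rfl

/-- The product of two differences of tuples. -/
theorem quad_le {s : Sh} {h : ℕ} (hs : s.Valid K (h + 1)) (y : Fin K → ℕ) {f : Fin 4 → ℕ}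
    (hf : Function.Injective f) :
    A.nrm ((tup s (put y h (f 0)) - tup s (put y h (f 1))) *
      (tup s (put y h (f 2)) - tup s (put y h (f 3)))) ≤ 4 * A.dev s h := by
  obtain ⟨σ, hσ, -⟩ := exists_perm 4 f Fin.val hf Fin.val_injective
  set T := fun i => tup s (put y h i)
  have hT : ∀ i, Bdd (T i) := fun i => (unit_tup s _).bdd
  rw [← A.nrm_act (local_kids y h σ) (((hT _).sub (hT _)).mul ((hT _).sub (hT _))).1]
  simp only [act_sub, act_mul, act_kids hs, hσ, T, Fin.val_zero, Fin.val_one]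
  show A.nrm ((T 0 - T 1) * (T 2 - T 3)) ≤ _
  have hd : ∀ a b : ℕ, a ≠ b → a < 4 → b < 4 →
      A.nrm (T a * T b - T 4 * T 5) = A.dev s h := fun a b hab ha hb => by
    refine A.duo_distinct hs y (f := ![a, b, 4, 5]) ?_
    intro i j hij
    fin_cases i <;> fin_cases j <;> simp at hij ⊢ <;> omega
  have hb : ∀ a b : ℕ, Bdd (T a * T b - T 4 * T 5) := fun a b =>
    ((hT a).mul (hT b)).sub ((hT 4).mul (hT 5))
  have e : (T 0 - T 1) * (T 2 - T 3) = ((T 0 * T 2 - T 4 * T 5) - (T 0 * T 3 - T 4 * T 5))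
      + ((T 1 * T 3 - T 4 * T 5) - (T 1 * T 2 - T 4 * T 5)) := by ring
  have hs' : ∀ a b c d, A.nrm ((T a * T b - T 4 * T 5) - (T c * T d - T 4 * T 5))
      ≤ A.nrm (T a * T b - T 4 * T 5) + A.nrm (T c * T d - T 4 * T 5) := fun a b c d => by
    rw [sub_eq_add_neg (T a * T b - T 4 * T 5)]
    refine (A.nrm_add_le (hb a b) (hb c d).neg).trans_eq ?_
    have := A.nrm_smul (-1) (T c * T d - T 4 * T 5)
    simp only [neg_smul, one_smul, abs_neg, abs_one, one_mul] at this
    rw [this]
  rw [e]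
  refine (A.nrm_add_le ((hb 0 2).sub (hb 0 3)) ((hb 1 3).sub (hb 1 2))).trans ?_
  refine (add_le_add (hs' 0 2 0 3) (hs' 1 3 1 2)).trans_eq ?_
  rw [hd 0 2 (by decide) (by decide) (by decide), hd 0 3 (by decide) (by decide) (by decide),
    hd 1 3 (by decide) (by decide) (by decide), hd 1 2 (by decide) (by decide) (by decide)]
  ring

/-- Moving a tuple to another child of its node costs the root of the deviation. -/
theorem opN (N : ℕ) {s : Sh} {h : ℕ} (hs : s.Valid K (h + 1)) (y : Fin K → ℕ) {W : Obs K} (hW : Unit1 W)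
    {i k : ℕ} (hav : Avoid (Kid y h {n | n = i ∨ n = k ∨ N ≤ n}) W) :
    A.nrm (W * (tup s (put y h i) - tup s (put y h k))) ≤ 2 * √(A.dev s h) := by
  rcases eq_or_ne i k with rfl | hik
  · have h0 : A.nrm (0 : Obs K) = 0 := by simp [nrm, pair]
    simp [h0]
  set T := fun m => tup s (put y h m)
  set D : ℕ → Obs K := fun m => T (N + i + k + 2 * m + 1) - T (N + i + k + 2 * m + 2)
  have hT : ∀ m, Unit1 (T m) := fun m => unit_tup s _
  have hWD : ∀ m, Bdd (W * D m) := fun m => hW.bdd.mul ((hT _).bdd.sub (hT _).bdd)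
  set P := A.pair (W * (T i - T k)) (W * (T i - T k))
  have hPm : ∀ m, A.pair (W * D m) (W * D m) = P := fun m => by
    obtain ⟨σ, hσ, hfix⟩ := exists_perm 2 ![i, k]
      ![N + i + k + 2 * m + 1, N + i + k + 2 * m + 2]
      (by intro a b hab; fin_cases a <;> fin_cases b <;> simp at hab ⊢ <;> omega)
      (by intro a b hab; fin_cases a <;> fin_cases b <;> simp at hab ⊢)
    have h0 : σ i = N + i + k + 2 * m + 1 := by simpa using hσ 0
    have h1 : σ k = N + i + k + 2 * m + 2 := by simpa using hσ 1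
    have hout : ∀ n, n ∉ {n | n = i ∨ n = k ∨ N ≤ n} → σ n = n := fun n hn => hfix n fun a => by
      simp only [Set.mem_ofPred_eq, not_or, not_le] at hn
      obtain ⟨h1', h2', h3'⟩ := hn
      fin_cases a <;> simp <;> omega
    have := A.pair_act (local_kids y h σ) (hW.bdd.mul ((hT i).bdd.sub (hT k).bdd)).1
      (hW.bdd.mul ((hT i).bdd.sub (hT k).bdd)).1
    simp only [T, act_mul, act_sub, act_kids hs, h0, h1, act_avoid hav (kids_fix hout)] at this
    exact this
  have hQ : ∀ m n, m ≠ n → A.pair (D m * D n) (D m * D n) ≤ (4 * A.dev s h) ^ 2 := fun m n hmn => by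
    rw [← A.nrm_sq (((hT _).bdd.sub (hT _).bdd).mul ((hT _).bdd.sub (hT _).bdd))]
    refine pow_le_pow_left₀ (A.nrm_nonneg _) (A.quad_le hs y (f := ![N + i + k + 2 * m + 1,
      N + i + k + 2 * m + 2, N + i + k + 2 * n + 1, N + i + k + 2 * n + 2]) ?_) 2
    intro a b hab
    fin_cases a <;> fin_cases b <;> simp at hab ⊢ <;> omega
  have hD2 : ∀ m σ, |D m σ| ≤ 2 := fun m σ =>
    (abs_sub _ _).trans ((add_le_add ((hT _).2 σ) ((hT _).2 σ)).trans_eq one_add_one_eq_two)
  -- first the bound with an average over `M` pairs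
  have key : ∀ r : ℝ, 0 < r → ∀ M : ℕ, 0 < M →
      P ≤ ((4 * A.dev s h) ^ 2 + r ^ 2 + 16 / M) / (2 * r) := by
    intro r hr M hM
    have := A.prob
    set U : (Pt K → ℕ → Bool) → ℝ := fun σ => (W fun a => σ a 0) * W fun a => σ a 1
    set Z : ℕ → (Pt K → ℕ → Bool) → ℝ := fun m σ => (D m fun a => σ a 0) * D m fun a => σ a 1
    have hmZ : ∀ m, Measurable (Z m) := fun m =>
      (((hT _).1.sub (hT _).1).comp (measurable_site 0)).mul
        (((hT _).1.sub (hT _).1).comp (measurable_site 1))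
    have hbZ : ∀ m σ, |Z m σ| ≤ 4 := fun m σ => by
      rw [abs_mul]
      exact (mul_le_mul (hD2 m _) (hD2 m _) (abs_nonneg _) zero_le_two).trans_eq (by norm_num)
    have hiZ : ∀ m n, Integrable (fun σ => Z m σ * Z n σ) A.law := fun m n =>
      A.integrable_of_bdd ((hmZ m).mul (hmZ n)) (B := 16) fun σ => by
        rw [abs_mul]
        exact (mul_le_mul (hbZ m σ) (hbZ n σ) (abs_nonneg _) (by norm_num)).trans_eq (by norm_num)
    have hsq : ∫ σ, (∑ m ∈ Finset.range M, Z m σ) ^ 2 ∂A.law
        ≤ M * M * (4 * A.dev s h) ^ 2 + M * 16 := by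
      simp only [sq, Finset.sum_mul_sum]
      rw [integral_finsetSum _ fun m _ => integrable_finsetSum _ fun n _ => hiZ m n]
      simp_rw [integral_finsetSum _ fun n _ => hiZ _ n]
      calc ∑ m ∈ Finset.range M, ∑ n ∈ Finset.range M, ∫ σ, Z m σ * Z n σ ∂A.law
          ≤ ∑ m ∈ Finset.range M, ∑ n ∈ Finset.range M,
            ((4 * A.dev s h) ^ 2 + if m = n then (16 : ℝ) else 0) := by
            refine Finset.sum_le_sum fun m _ => Finset.sum_le_sum fun n _ => ?_
            rcases eq_or_ne m n with rfl | hmn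
            · rw [if_pos rfl]
              refine (integral_mono (hiZ m m) (integrable_const 16) fun σ => ?_).trans ?_
              · refine (le_abs_self _).trans ((abs_mul _ _).trans_le ?_)
                exact (mul_le_mul (hbZ m σ) (hbZ m σ) (abs_nonneg _) (by norm_num)).trans_eq
                  (by norm_num)
              · simp only [integral_const, probReal_univ, one_smul]
                exact le_add_of_nonneg_left (sq_nonneg _)
            · rw [if_neg hmn, add_zero]
              refine le_of_eq_of_le ?_ (hQ m n hmn)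
              refine integral_congr_ae (.of_forall fun σ => ?_)
              simp only [Z, Pi.mul_apply]
              ring
        _ = _ := by
            simp only [Finset.sum_add_distrib, Finset.sum_const, Finset.card_range, nsmul_eq_mul,
              Finset.sum_ite_eq]
            rw [Finset.sum_congr rfl fun m hm => if_pos hm]
            simp only [Finset.sum_const, Finset.card_range, nsmul_eq_mul]
            ring
    have hU : ∀ σ, |U σ| ≤ 1 := fun σ => by
      rw [abs_mul]
      exact (mul_le_mul (hW.2 _) (hW.2 _) (abs_nonneg _) zero_le_one).trans_eq (one_mul 1)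
    have hsum : ∫ σ, U σ * ∑ m ∈ Finset.range M, Z m σ ∂A.law = M * P := by
      have hi : ∀ m, Integrable (fun σ => U σ * Z m σ) A.law := fun m =>
        A.integrable_of_bdd (((hW.1.comp (measurable_site 0)).mul
          (hW.1.comp (measurable_site 1))).mul (hmZ m)) (B := 4) fun σ => by
            rw [abs_mul]
            exact (mul_le_mul (hU σ) (hbZ m σ) (abs_nonneg _) zero_le_one).trans_eq (one_mul 4)
      simp only [Finset.mul_sum]
      rw [integral_finsetSum _ fun m _ => hi m, Finset.sum_congr rfl fun m _ =>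
        (show ∫ σ, U σ * Z m σ ∂A.law = P by
          rw [← hPm m]
          refine integral_congr_ae (.of_forall fun σ => ?_)
          simp only [U, Z, Pi.mul_apply]
          ring)]
      simp
    have hZi : Integrable (fun σ => (∑ m ∈ Finset.range M, Z m σ) ^ 2) A.law := by
      simp only [sq, Finset.sum_mul_sum]
      exact integrable_finsetSum _ fun m _ => integrable_finsetSum _ fun n _ => hiZ m n
    have hle : 2 * (M * r) * (M * P) ≤ ∫ σ, (∑ m ∈ Finset.range M, Z m σ) ^ 2 ∂A.law
        + (M * r) ^ 2 := by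
      rw [← hsum, ← integral_const_mul]
      refine (integral_mono ?_ (hZi.add (integrable_const ((M * r : ℝ) ^ 2))) fun σ => ?_).trans_eq ?_
      · refine (A.integrable_of_bdd ((((hW.1.comp (measurable_site 0)).mul
          (hW.1.comp (measurable_site 1))).mul (Finset.measurable_sum _ fun m _ => hmZ m)))
          (B := 4 * M) fun σ => ?_).const_mul _
        simp only [Pi.mul_apply, Function.comp_apply]
        rw [abs_mul]
        refine (mul_le_of_le_one_left (abs_nonneg _) (hU σ)).trans ?_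
        refine (Finset.abs_sum_le_sum_abs _ _).trans ((Finset.sum_le_sum fun m _ => hbZ m σ).trans_eq ?_)
        simp [mul_comm]
      · have h2 : |U σ * ∑ m ∈ Finset.range M, Z m σ| ≤ |∑ m ∈ Finset.range M, Z m σ| := by
          rw [abs_mul]
          exact mul_le_of_le_one_left (abs_nonneg _) (hU σ)
        have hMr : (0 : ℝ) < M * r := by positivity
        simp only [Pi.add_apply]
        nlinarith [le_abs_self (U σ * ∑ m ∈ Finset.range M, Z m σ),
          sq_nonneg (|∑ m ∈ Finset.range M, Z m σ| - M * r), sq_abs (∑ m ∈ Finset.range M, Z m σ)]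
      · simp only [Pi.add_apply]
        rw [integral_add hZi (integrable_const _)]
        simp
    have hM' : (0 : ℝ) < M := Nat.cast_pos.2 hM
    rw [le_div_iff₀ (by positivity)]
    have h3 : (M : ℝ) * M * (P * (2 * r)) ≤ M * M * ((4 * A.dev s h) ^ 2 + r ^ 2 + 16 / M) := by
      have e : (M : ℝ) * M * ((4 * A.dev s h) ^ 2 + r ^ 2 + 16 / M)
          = M * M * (4 * A.dev s h) ^ 2 + M * 16 + (M * r) ^ 2 := by
        field_simp
        ring
      rw [e]
      linarith
    exact le_of_mul_le_mul_left h3 (by positivity)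
  have hP : P ≤ 4 * A.dev s h := by
    refine le_of_forall_pos_le_add fun ε hε => ?_
    have hr : 0 < 4 * A.dev s h + ε := by linarith [A.dev_nonneg s h]
    obtain ⟨M, hM⟩ := exists_nat_gt (16 / ε ^ 2)
    have hM0 : 0 < M := Nat.cast_pos.1 ((by positivity : (0 : ℝ) ≤ 16 / ε ^ 2).trans_lt hM)
    refine (key _ hr M hM0).trans ((div_le_iff₀ (by linarith)).2 ?_)
    have h16 : 16 / (M : ℝ) ≤ ε ^ 2 := by
      rw [div_le_iff₀ (Nat.cast_pos.2 hM0)]
      rw [div_lt_iff₀ (by positivity)] at hM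
      linarith
    nlinarith [A.dev_nonneg s h, hε.le]
  calc A.nrm (W * (T i - T k)) = √P := rfl
    _ ≤ √(4 * A.dev s h) := Real.sqrt_le_sqrt hP
    _ = 2 * √(A.dev s h) := by
      rw [Real.sqrt_mul (by norm_num), show (4 : ℝ) = 2 ^ 2 by norm_num,
        Real.sqrt_sq zero_le_two]

/-- Moving a tuple between the first children of its node. -/
theorem op {s : Sh} {h : ℕ} (hs : s.Valid K (h + 1)) (y : Fin K → ℕ) {W : Obs K} (hW : Unit1 W)
    {i k : ℕ} (hav : Avoid (Kid y h {n | n = i ∨ n = k ∨ 4 ≤ n}) W) :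
    A.nrm (W * (tup s (put y h i) - tup s (put y h k))) ≤ 2 * √(A.dev s h) :=
  A.opN 4 hs y hW hav

/-- One-site correlations of tuples in given children of two nodes of a path. -/
theorem mean_cross {s : Sh} {g h : ℕ} (hs : s.Valid K (h + 1)) (hgh : g ≤ h) (y : Fin K → ℕ)
    {i k : ℕ} (hik : g = h → i ≠ k) (hi : ∀ l : Fin K, (l : ℕ) = g → g < h → i ≠ y l) :
    A.mean (tup s (put y g i) * tup s (put y h k)) = A.corr s g := by
  obtain ⟨σg, hσ0, hσ1⟩ : ∃ σ : Equiv.Perm ℕ,
      (∀ l : Fin K, (l : ℕ) = g → σ (put y h k l) = 0) ∧ (∀ l : Fin K, (l : ℕ) = g → σ i = 1) := by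
    by_cases hg : g < K
    · have hne : put y h k ⟨g, hg⟩ ≠ i := by
        rcases eq_or_lt_of_le hgh with rfl | hlt
        · rw [put_of_eq y k (l := ⟨g, hg⟩) rfl]
          exact (hik rfl).symm
        · rw [put_of_lt y k (l := ⟨g, hg⟩) hlt]
          exact (hi ⟨g, hg⟩ rfl hlt).symm
      obtain ⟨σ, hσ, -⟩ := exists_perm 2 ![put y h k ⟨g, hg⟩, i] ![0, 1]
        (by intro a b; fin_cases a <;> fin_cases b <;> simp [hne, hne.symm])
        (by intro a b; fin_cases a <;> fin_cases b <;> simp)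
      refine ⟨σ, fun l hl => ?_, fun l _ => ?_⟩
      · have : l = ⟨g, hg⟩ := Fin.ext hl
        subst this
        simpa using hσ 0
      · simpa using hσ 1
    · exact ⟨1, fun l hl => absurd (hl ▸ l.isLt) hg, fun l hl => absurd (hl ▸ l.isLt) hg⟩
  set e : ℕ → Equiv.Perm ℕ := fun n => if n = g then σg
    else if hn : n ≤ h ∧ n < K then Equiv.swap (put y h k ⟨n, hn.2⟩) 0 else 1
  set y' := put y h k
  have h1 : act (permMap (along y' e)) (tup s y') = tup s (put (fun _ => 0) g 0) := by
    rw [act_tup (local_along y' e) s _ hs (fun w _ l hl => by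
      simp only [along, e]
      rw [if_neg (show (l : ℕ) ≠ g by omega), dif_neg (fun H => by omega)]
      simp)]
    congr 1
    funext l
    simp only [permMap, along, e]
    rw [if_pos (show Agree (l : ℕ) y' y' from fun _ _ => rfl)]
    have hz : put (fun _ => 0) g 0 l = 0 := by simp [put]
    rw [hz]
    by_cases hlg : (l : ℕ) = g
    · rw [if_pos hlg]; exact hσ0 l hlg
    · rw [if_neg hlg]
      by_cases hlh : (l : ℕ) ≤ h
      · rw [dif_pos ⟨hlh, l.isLt⟩]; exact Equiv.swap_apply_left _ _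
      · rw [dif_neg fun H => hlh H.1]
        exact put_of_gt y k (not_le.1 hlh)
  have hagree : ∀ l : Fin K, (l : ℕ) ≤ g → Agree l (put y g i) y' := fun l hl =>
    (agree_put y i hl).trans (agree_put y k (hl.trans hgh)).symm
  have hdis : ∀ l : Fin K, g < (l : ℕ) → ∀ w, Agree (g + 1) w (put y g i) → ¬Agree l w y' :=
    fun l hl w hw hA => by
      have hg : g < K := hl.trans l.isLt
      have e1 := hA ⟨g, hg⟩ hl
      rw [hw ⟨g, hg⟩ (Nat.lt_succ_self g), put_of_eq y i (l := ⟨g, hg⟩) rfl] at e1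
      rcases eq_or_lt_of_le hgh with rfl | hlt
      · exact hik rfl (e1.trans (put_of_eq y k rfl))
      · exact hi ⟨g, hg⟩ rfl hlt (e1.trans (put_of_lt y k hlt))
  have h2 : act (permMap (along y' e)) (tup s (put y g i)) = tup s (put (fun _ => 0) g 1) := by
    rw [act_tup (local_along y' e) s _ (hs.mono (Nat.succ_le_succ hgh)) (fun w hw l hl => by
      simp only [along]
      rw [if_neg (hdis l (by omega) w hw)])]
    congr 1
    funext l
    simp only [permMap, along, e]
    rcases lt_trichotomy (l : ℕ) g with hlt | heq | hgt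
    · rw [if_pos (hagree l hlt.le), if_neg hlt.ne, dif_pos ⟨hlt.le.trans hgh, l.isLt⟩,
        put_of_lt _ _ hlt, put_of_lt _ _ hlt]
      have : put y h k ⟨l, l.isLt⟩ = y l := put_of_lt y k (hlt.trans_le hgh)
      rw [this]
      exact Equiv.swap_apply_left _ _
    · rw [if_pos (hagree l heq.le), if_pos heq, put_of_eq _ _ heq, put_of_eq _ _ heq]
      exact hσ1 l heq
    · rw [if_neg (hdis l hgt _ fun _ _ => rfl), put_of_gt _ _ hgt, put_of_gt _ _ hgt]
      rfl
  rw [← A.mean_act (local_along y' e) ((unit_tup s _).mul (unit_tup s _)).1, act_mul, h1, h2,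
    corr, mul_comm]
  rfl

/-- The average of a tuple over fresh children of the node at level `g`. -/
def fresh (N : ℕ) (s : Sh) (y : Fin K → ℕ) (g M : ℕ) : Obs K :=
  (M : ℝ)⁻¹ • ∑ m ∈ Finset.range M, tup s (put y g (N + m))

theorem bdd_fresh (N : ℕ) (s : Sh) (y : Fin K → ℕ) (g M : ℕ) : Bdd (fresh N s y g M) :=
  (Bdd.sum _ fun m _ => (unit_tup s _).bdd).smul _

theorem energy_sq (N : ℕ) {s : Sh} {g h : ℕ} (hs : s.Valid K (h + 1)) (hgh : g < h) (y : Fin K → ℕ)
    (hy : ∀ l : Fin K, (l : ℕ) = g → y l < N) {M : ℕ} (hM : 0 < M) :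
    0 ≤ A.corr s h - A.corr s g + 4 / M ∧
      A.mean ((fresh N s y g M - fresh N s y h M) * (fresh N s y g M - fresh N s y h M))
        ≤ A.corr s h - A.corr s g + 4 / M := by
  have := A.prob
  have hs' : s.Valid K (g + 1) := hs.mono (by omega)
  set a := fun m => tup s (put y g (N + m))
  set b := fun m => tup s (put y h (N + m))
  have ha : ∀ m, Unit1 (a m) := fun m => unit_tup s _
  have hb : ∀ m, Unit1 (b m) := fun m => unit_tup s _
  have hM' : (0 : ℝ) < M := Nat.cast_pos.2 hM
  have hsum : ∀ (p q : ℕ → Obs K), (∀ m, Unit1 (p m)) → (∀ m, Unit1 (q m)) →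
      A.mean ((∑ m ∈ Finset.range M, p m) * ∑ m ∈ Finset.range M, q m)
        = ∑ m ∈ Finset.range M, ∑ n ∈ Finset.range M, A.mean (p m * q n) := by
    intro p q hp hq
    simp only [mean, Finset.sum_mul_sum, Finset.sum_apply, Pi.mul_apply]
    have hi : ∀ m n, Integrable
        (fun σ : Pt K → ℕ → Bool => (p m fun a => σ a 0) * q n fun a => σ a 0) A.law :=
      fun m n => A.integrable_site ((hp m).mul (hq n)).bdd 0
    rw [integral_finsetSum _ fun m _ => integrable_finsetSum _ fun n _ => hi m n]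
    exact Finset.sum_congr rfl fun m _ => integral_finsetSum _ fun n _ => hi m n
  have hcorr : ∀ c, |A.corr s c| ≤ 1 := fun c => A.abs_mean_le_one (unit_duo s s _ c 0 1)
  have hown : ∀ (c : ℕ) (hc : s.Valid K (c + 1)),
      ∑ m ∈ Finset.range M, ∑ n ∈ Finset.range M,
        A.mean (tup s (put y c (N + m)) * tup s (put y c (N + n))) ≤ M * M * A.corr s c + M * 2 := by
    intro c hc
    calc _ ≤ ∑ m ∈ Finset.range M, ∑ n ∈ Finset.range M,
          (A.corr s c + if m = n then (2 : ℝ) else 0) := by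
          refine Finset.sum_le_sum fun m _ => Finset.sum_le_sum fun n _ => ?_
          rcases eq_or_ne m n with rfl | hmn
          · rw [if_pos rfl]
            have h1 := (abs_le.1 (A.abs_mean_le_one ((unit_tup s (put y c (N + m))).mul
              (unit_tup s (put y c (N + m)))))).2
            have h2 := (abs_le.1 (hcorr c)).1
            linarith
          · rw [if_neg hmn, add_zero, A.mean_cross hc le_rfl y (fun _ => by omega)
              fun l _ h' => absurd h' (lt_irrefl _)]
      _ = _ := by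
          simp only [Finset.sum_add_distrib, Finset.sum_const, Finset.card_range, nsmul_eq_mul,
            Finset.sum_ite_eq]
          rw [Finset.sum_congr rfl fun m hm => if_pos hm]
          simp only [Finset.sum_const, Finset.card_range, nsmul_eq_mul]
          ring
  have hab : ∑ m ∈ Finset.range M, ∑ n ∈ Finset.range M, A.mean (a m * b n)
      = M * M * A.corr s g := by
    rw [Finset.sum_congr rfl fun m _ => Finset.sum_congr rfl fun n _ =>
      A.mean_cross hs hgh.le y (fun h' => absurd h' hgh.ne) fun l hl _ => by have := hy l hl; omega]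
    simp
    ring
  set S := ∑ m ∈ Finset.range M, a m
  set T := ∑ m ∈ Finset.range M, b m
  have hS : Bdd S := Bdd.sum _ fun m _ => (ha m).bdd
  have hT : Bdd T := Bdd.sum _ fun m _ => (hb m).bdd
  have hval : A.mean ((fresh N s y g M - fresh N s y h M) * (fresh N s y g M - fresh N s y h M))
      = ((M : ℝ)⁻¹) ^ 2 * (A.mean (S * S) + A.mean (T * T) - 2 * A.mean (S * T)) := by
    have e : ∀ σ, ((fresh N s y g M - fresh N s y h M) * (fresh N s y g M - fresh N s y h M)) σ
        = ((M : ℝ)⁻¹) ^ 2 * ((S * S) σ + (T * T) σ - 2 * (S * T) σ) := fun σ => by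
      simp only [fresh, S, T, a, b, Pi.mul_apply, Pi.sub_apply, Pi.smul_apply, smul_eq_mul]
      ring
    simp only [mean, e]
    have hi : Integrable (fun σ : Pt K → ℕ → Bool =>
        (S * S) (fun a => σ a 0) + (T * T) fun a => σ a 0) A.law :=
      (A.integrable_site (hS.mul hS) 0).add (A.integrable_site (hT.mul hT) 0)
    rw [integral_const_mul, integral_sub hi ((A.integrable_site (hS.mul hT) 0).const_mul 2),
      integral_add (A.integrable_site (hS.mul hS) 0) (A.integrable_site (hT.mul hT) 0),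
      integral_const_mul]
  have hnn : 0 ≤ A.mean ((fresh N s y g M - fresh N s y h M) * (fresh N s y g M - fresh N s y h M)) :=
    integral_nonneg fun σ => mul_self_nonneg _
  have hle : A.mean ((fresh N s y g M - fresh N s y h M) * (fresh N s y g M - fresh N s y h M))
      ≤ A.corr s h - A.corr s g + 4 / M := by
    rw [hval, hsum a a ha ha, hsum b b hb hb, hsum a b ha hb, hab]
    have h1 := hown g hs'
    have h2 := hown h hs
    have e : (M : ℝ)⁻¹ ^ 2 * (M * M * (A.corr s h - A.corr s g) + M * 4)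
        = A.corr s h - A.corr s g + 4 / M := by field_simp
    rw [← e]
    refine mul_le_mul_of_nonneg_left ?_ (sq_nonneg _)
    linarith
  exact ⟨hnn.trans hle, hle⟩

theorem corr_mono {s : Sh} {g h : ℕ} (hs : s.Valid K (h + 1)) (hgh : g ≤ h) :
    A.corr s g ≤ A.corr s h := by
  rcases eq_or_lt_of_le hgh with rfl | hlt
  · exact le_rfl
  refine le_of_forall_pos_le_add fun ε hε => ?_
  obtain ⟨M, hM⟩ := exists_nat_gt (4 / ε)
  have hM0 : 0 < M := Nat.cast_pos.1 ((by positivity : (0 : ℝ) ≤ 4 / ε).trans_lt hM)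
  have := (A.energy_sq 1 hs hlt (fun _ => 0) (fun _ _ => by norm_num) hM0).1
  have : 4 / (M : ℝ) ≤ ε := by
    rw [div_le_iff₀ (Nat.cast_pos.2 hM0)]
    rw [div_lt_iff₀ hε] at hM
    linarith
  linarith

theorem nrm_to_fresh (N : ℕ) {s : Sh} {h : ℕ} (hs : s.Valid K (h + 1)) (y : Fin K → ℕ) {W : Obs K}
    (hW : Unit1 W) {i : ℕ} (hav : Avoid (Kid y h {n | n = i ∨ N ≤ n}) W) {M : ℕ} (hM : 0 < M) :
    A.nrm (W * (tup s (put y h i) - fresh N s y h M)) ≤ 2 * √(A.dev s h) := by
  have hM' : (M : ℝ) ≠ 0 := Nat.cast_ne_zero.2 hM.ne'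
  have e : W * (tup s (put y h i) - fresh N s y h M)
      = (M : ℝ)⁻¹ • ∑ m ∈ Finset.range M, W * (tup s (put y h i) - tup s (put y h (N + m))) := by
    funext σ
    simp only [fresh, Pi.mul_apply, Pi.sub_apply, Pi.smul_apply, Finset.sum_apply, smul_eq_mul,
      mul_sub, Finset.sum_sub_distrib, Finset.sum_const, Finset.card_range, nsmul_eq_mul,
      ← Finset.mul_sum, Pi.natCast_apply]
    field_simp
  rw [e, A.nrm_smul, abs_inv, Nat.abs_cast, inv_mul_le_iff₀ (Nat.cast_pos.2 hM)]
  refine (A.nrm_sum_le _ fun m _ =>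
    hW.bdd.mul ((unit_tup s _).bdd.sub (unit_tup s _).bdd)).trans ?_
  refine (Finset.sum_le_sum fun m _ => A.opN N hs y hW (hav.mono ?_)).trans_eq (by simp)
  rintro p ⟨hp, hp'⟩
  refine ⟨hp, fun l hl => ?_⟩
  rcases hp' l hl with h' | h' | h'
  · exact .inl h'
  · exact .inr (by omega)
  · exact .inr h'

/-- Moving a tuple from a child of a node to a child of an ancestor. -/
theorem climbN (N : ℕ) {s : Sh} {g h : ℕ} (hs : s.Valid K (h + 1)) (hgh : g ≤ h) (y : Fin K → ℕ)
    (hy : ∀ l : Fin K, (l : ℕ) = g → y l < N) {W : Obs K} (hW : Unit1 W) {i k : ℕ}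
    (hi : Avoid (Kid y h {n | n = i ∨ N ≤ n}) W) (hk : Avoid (Kid y g {n | n = k ∨ N ≤ n}) W) :
    A.nrm (W * (tup s (put y h i) - tup s (put y g k)))
      ≤ 2 * √(A.dev s h) + 2 * √(A.dev s g) + √(A.corr s h - A.corr s g) := by
  have hs' : s.Valid K (g + 1) := hs.mono (by omega)
  refine le_of_forall_pos_le_add fun ε hε => ?_
  obtain ⟨M, hM⟩ := exists_nat_gt (4 / ε ^ 2)
  have hM0 : 0 < M := Nat.cast_pos.1 ((by positivity : (0 : ℝ) ≤ 4 / ε ^ 2).trans_lt hM)
  have hM4 : 4 / (M : ℝ) ≤ ε ^ 2 := by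
    rw [div_le_iff₀ (Nat.cast_pos.2 hM0)]
    rw [div_lt_iff₀ (by positivity)] at hM
    linarith
  set Ti := tup s (put y h i)
  set Tk := tup s (put y g k)
  have hTi : Bdd Ti := (unit_tup s _).bdd
  have hTk : Bdd Tk := (unit_tup s _).bdd
  have hfg := bdd_fresh N s y g M
  have hfh := bdd_fresh N s y h M
  have hmid : A.nrm (W * (fresh N s y h M - fresh N s y g M))
      ≤ √(A.corr s h - A.corr s g) + ε := by
    rcases eq_or_lt_of_le hgh with rfl | hlt
    · have h0 : A.nrm (0 : Obs K) = 0 := by simp [nrm, pair]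
      simp [h0, hε.le]
    · obtain ⟨-, h2⟩ := A.energy_sq N hs hlt y hy hM0
      set v := fresh N s y g M - fresh N s y h M
      have hv : Bdd v := hfg.sub hfh
      have hWv : A.pair (W * v) (W * v) ≤ A.mean (v * v) := by
        refine (A.pair_self_le (hW.bdd.mul hv)).trans ?_
        refine integral_mono (A.integrable_site ((hW.bdd.mul hv).mul (hW.bdd.mul hv)) 0)
          (A.integrable_site (hv.mul hv) 0) fun σ => ?_
        simp only [Pi.mul_apply]
        have hw := hW.2 fun a => σ a 0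
        rw [mul_mul_mul_comm]
        refine mul_le_of_le_one_left (mul_self_nonneg _) ?_
        nlinarith [abs_le.1 hw]
      rw [show W * (fresh N s y h M - fresh N s y g M) = (-1 : ℝ) • (W * v) by
        funext σ; simp [v]; ring, A.nrm_smul, abs_neg, abs_one, one_mul]
      refine Real.sqrt_le_iff.2 ⟨add_nonneg (Real.sqrt_nonneg _) hε.le, ?_⟩
      have hd : 0 ≤ A.corr s h - A.corr s g := sub_nonneg.2 (A.corr_mono hs hgh)
      rw [add_sq, Real.sq_sqrt hd]
      nlinarith [Real.sqrt_nonneg (A.corr s h - A.corr s g)]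
  have e : W * (Ti - Tk) = W * (Ti - fresh N s y h M) + W * (fresh N s y h M - fresh N s y g M)
      + (-1 : ℝ) • (W * (Tk - fresh N s y g M)) := by
    funext σ; simp; ring
  rw [e]
  refine (A.nrm_add_le ((hW.bdd.mul (hTi.sub hfh)).add (hW.bdd.mul (hfh.sub hfg)))
    ((hW.bdd.mul (hTk.sub hfg)).smul _)).trans ?_
  refine le_trans (add_le_add (A.nrm_add_le (hW.bdd.mul (hTi.sub hfh))
    (hW.bdd.mul (hfh.sub hfg))) le_rfl) ?_
  rw [A.nrm_smul, abs_neg, abs_one, one_mul]
  have h1 := A.nrm_to_fresh N hs y hW hi hM0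
  have h2 := A.nrm_to_fresh N hs' y hW hk hM0
  linarith

/-- Moving a tuple from a child of a node to a first child of an ancestor. -/
theorem climb {s : Sh} {g h : ℕ} (hs : s.Valid K (h + 1)) (hgh : g ≤ h) (y : Fin K → ℕ)
    (hy : ∀ l : Fin K, (l : ℕ) = g → y l < 4) {W : Obs K} (hW : Unit1 W) {i k : ℕ}
    (hi : Avoid (Kid y h {n | n = i ∨ 4 ≤ n}) W) (hk : Avoid (Kid y g {n | n = k ∨ 4 ≤ n}) W) :
    A.nrm (W * (tup s (put y h i) - tup s (put y g k)))
      ≤ 2 * √(A.dev s h) + 2 * √(A.dev s g) + √(A.corr s h - A.corr s g) :=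
  A.climbN 4 hs hgh y hy hW hi hk

end Arr

end Vale.Agent.P168
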