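import Vale.Agent.P168.Core.Sums

/-!
P168: two tuples of one shape in different children of a node decouple from the node's labels,
on average over shapes and nodes.
-/

open MeasureTheory Filter Topology

noncomputable section

namespace Vale.Agent.P168

variable {K : ℕ}

theorem Sh.Valid.at_top : ∀ {s : Sh} {g : ℕ}, s.Valid K g → s.Valid K (s.top K)
  | .leaf, _, _ => trivial
  | .node _ _ _, _, h => ⟨le_rfl, h.2⟩

theorem Sh.Valid.le_top : ∀ {s : Sh} {g : ℕ}, s.Valid K g → g ≤ K → g ≤ s.top K
  | .leaf, _, _, h => h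
  | .node _ _ _, _, hv, _ => hv.1

theorem Sh.Valid.top_le : ∀ {s : Sh} {g : ℕ}, s.Valid K g → s.top K ≤ K
  | .leaf, _, _ => le_rfl
  | .node _ _ _, _, hv => hv.2.1.le

theorem Sh.levels_lower : ∀ (s : Sh) (j : ℕ), (s.lower j).levels = s.levels.image (· - j)
  | .leaf, _ => rfl
  | .node h L R, j => by
    simp only [Sh.lower, Sh.levels, Finset.image_insert, Finset.image_union,
      Sh.levels_lower L, Sh.levels_lower R]

theorem Sh.Valid.levels_ge : ∀ {s : Sh} {g l : ℕ}, s.Valid K g → l ∈ s.levels → g ≤ l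
  | .leaf, _, _, _, hl => by simp [Sh.levels] at hl
  | .node h L R, g, l, hv, hl => by
    simp only [Sh.levels, Finset.mem_insert, Finset.mem_union] at hl
    rcases hl with rfl | hl | hl
    · exact hv.1
    · have := hv.2.2.1.levels_ge hl
      have := hv.1
      omega
    · have := hv.2.2.2.levels_ge hl
      have := hv.1
      omega

theorem Sh.card_levels : ∀ s : Sh, s.levels.card < s.size
  | .leaf => by simp [Sh.levels, Sh.size]
  | .node h L R => by
    simp only [Sh.levels, Sh.size]
    have := Finset.card_insert_le h (L.levels ∪ R.levels)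
    have := Finset.card_union_le L.levels R.levels
    have := Sh.card_levels L
    have := Sh.card_levels R
    omega

/-- Some shift separates the levels of a shape from the lowered ones. -/
theorem exists_shift {s : Sh} {g J : ℕ} (hv : s.Valid K (g + J)) (hJ : s.size * s.size < J) :
    ∃ j ∈ Finset.Icc 1 J, Disjoint s.levels (s.lower j).levels := by
  set B := (s.levels ×ˢ s.levels).image fun p : ℕ × ℕ => p.2 - p.1
  have hB : B.card < (Finset.Icc 1 J).card := by
    refine Finset.card_image_le.trans_lt ?_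
    rw [Finset.card_product, Nat.card_Icc, Nat.add_sub_cancel]
    exact (Nat.mul_le_mul (Sh.card_levels s).le (Sh.card_levels s).le).trans_lt hJ
  obtain ⟨j, hj, hjB⟩ := Finset.exists_mem_notMem_of_card_lt_card hB
  refine ⟨j, hj, ?_⟩
  rw [Sh.levels_lower, Finset.disjoint_left]
  intro l hl hl'
  obtain ⟨l', hl'1, hl'2⟩ := Finset.mem_image.1 hl'
  refine hjB (Finset.mem_image.2 ⟨(l, l'), Finset.mem_product.2 ⟨hl, hl'1⟩, ?_⟩)
  have := hv.levels_ge hl'1
  rw [Finset.mem_Icc] at hj
  dsimp only
  omega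

/-- Relabellings above all branchings of a tuple. -/
theorem act_move {s : Sh} {g c : ℕ} (hs : s.Valid K g) (hc : c < g) (y x : Fin K → ℕ)
    (σ : Equiv.Perm ℕ) :
    act (permMap (kids y c σ)) (tup s x) = tup s (permMap (kids y c σ) x) :=
  act_tup (local_kids y c σ) s x hs fun w _ l hl => by simp [kids, (show (l : ℕ) ≠ c by omega)]

namespace Arr

variable (A : Arr K)

theorem nrm_sub_le {x y : Obs K} (hx : Bdd x) (hy : Bdd y) :
    A.nrm (x - y) ≤ A.nrm x + A.nrm y := by
  have h := A.nrm_triangle hx (Bdd.const 0) hy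
  rw [A.nrm_sub_comm (fun _ => 0) y] at h
  simpa [← Pi.zero_def] using h

theorem dev_le_two (s : Sh) (a : ℕ) : A.dev s a ≤ 2 :=
  (A.nrm_sub_le (unit_duo s s _ a 0 1).bdd (unit_duo s s _ a 2 3).bdd).trans
    ((add_le_add (A.nrm_le_one (unit_duo s s _ a 0 1))
      (A.nrm_le_one (unit_duo s s _ a 2 3))).trans_eq one_add_one_eq_two)

theorem half_nonneg : ∀ s : Sh, 0 ≤ A.half s
  | .leaf => le_rfl
  | .node _ _ _ => add_nonneg (Real.sqrt_nonneg _) (Real.sqrt_nonneg _)

theorem half_le_cost (j : ℕ) : ∀ s : Sh, A.half (s.lower j) ≤ A.cost j s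
  | .leaf => le_rfl
  | .node h L R => by
    simp only [Sh.lower, half, cost, step]
    have := A.cost_nonneg j L
    have := A.cost_nonneg j R
    have := Real.sqrt_nonneg (A.dev L h)
    have := Real.sqrt_nonneg (A.dev L (h - j))
    have := Real.sqrt_nonneg (A.corr L h - A.corr L (h - j))
    have := Real.sqrt_nonneg (A.dev R h)
    have := Real.sqrt_nonneg (A.dev R (h - j))
    have := Real.sqrt_nonneg (A.corr R h - A.corr R (h - j))
    have := Real.sqrt_nonneg (A.dev (L.lower j) (h - j))
    have := Real.sqrt_nonneg (A.dev (R.lower j) (h - j))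
    linarith

/-- A tuple and its lowered copy on fresh labels, off the subtree of a node. -/
theorem lower_close {s : Sh} {a j : ℕ} (hv : s.Valid K (a + 1 + j)) (x : Fin K → ℕ)
    (hx : ∀ l : Fin K, (s.lower j).top K ≤ (l : ℕ) → x l < 2) {W : Obs K} (hW : Unit1 W)
    (hav : Avoid {p | Agree (a + 1) p x} W) :
    A.nrm (W * (tup s x - tupF 2 3 (s.lower j) x)) ≤ A.cost j s := by
  cases s with
  | leaf => simp [Sh.lower, tupF, cost, nrm, pair]
  | node h L R =>
    obtain ⟨h1, h2⟩ := hv
    exact (A.shift_both j (.node h L R) (g := h) x ⟨le_rfl, h2⟩ (by omega) hx hW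
      (hav.mono fun p (hp : Agree (h - j) p x) => hp.mono (by omega))).1

/-- The deviation at a node through the identity of one level. -/
theorem dev_sq_le {C : ℕ → ℝ} (hA : A.Tel C) {a j : ℕ} {s : Sh} (ha : a < K)
    (hv : s.Valid K (a + 1 + j))
    (hd : s = Sh.leaf ∨ (1 ≤ j ∧ Disjoint s.levels (s.lower j).levels)) :
    mpar K (a + 1) * A.dev s a ^ 2
      ≤ 8 * ((|C s.size| + 2) * gapK K + (|C s.size| + 4) * A.cost j s) := by
  set t := s.lower j with ht
  have hs : s.Valid K (a + 1) := hv.mono (by omega)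
  have htv : t.Valid K (a + 1) := by simpa using hv.lower (j := j) (by omega)
  set T := t.top K with hT
  have haT : a + 1 ≤ T := htv.le_top (by omega)
  have hTK : T ≤ K := htv.top_le
  have hts : t = Sh.leaf ∨ (t.top K < s.top K ∧ Disjoint s.levels t.levels) := by
    rcases hd with rfl | ⟨hj, hd⟩
    · exact .inl rfl
    · cases s with
      | leaf => exact .inl rfl
      | node h L R =>
        have := hv.1
        exact .inr ⟨by simp only [ht, Sh.lower, Sh.top]; omega, hd⟩
  set z : Fin K → ℕ := fun _ => 0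
  set p0 := put z a 0
  set f := duo s s z a 0 1
  have hf : Unit1 f := unit_duo s s z a 0 1
  set G := fun x => A.pair f (tup s p0 * tup s x)
  set G' := fun x => A.pair f (tupF 2 3 t p0 * tupF 2 3 t x)
  set y := put z a 1 with hy
  set xa := put z a 2 with hxa
  have hcl : ∀ x : Fin K → ℕ, x ⟨a, ha⟩ ≠ 0 → (∀ l : Fin K, T ≤ (l : ℕ) → x l < 2) →
      |G x - G' x| ≤ 2 * A.cost j s := fun x hxa hxT => by
    have hU := (unit_tupF 2 3 t p0).mul (unit_tupF 2 3 t x)
    have hV := (unit_tup s p0).mul (unit_tup s x)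
    simp only [G, G']
    rw [← A.pair_sub_right hf.bdd hV.bdd hU.bdd]
    refine (A.abs_pair_le hf.bdd (hV.bdd.sub hU.bdd)).trans ?_
    refine (mul_le_of_le_one_left (A.nrm_nonneg _) (A.nrm_le_one hf)).trans ?_
    rw [show tup s p0 * tup s x - tupF 2 3 t p0 * tupF 2 3 t x
      = tup s x * (tup s p0 - tupF 2 3 t p0) + tupF 2 3 t p0 * (tup s x - tupF 2 3 t x) by ring]
    have b1 : A.nrm (tup s x * (tup s p0 - tupF 2 3 t p0)) ≤ A.cost j s := by
      refine A.lower_close hv p0 (fun l hl => ?_) (unit_tup s x) (avoid_tup s x hs fun w hw hp => ?_)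
      · have : T ≤ (l : ℕ) := hl
        rw [show p0 l = 0 from put_of_gt z 0 (by omega)]
        norm_num
      · refine hxa ?_
        rw [← hw ⟨a, ha⟩ (Nat.lt_succ_self a), hp ⟨a, ha⟩ (Nat.lt_succ_self a)]
        exact put_of_eq z 0 rfl
    have b2 : A.nrm (tupF 2 3 t p0 * (tup s x - tupF 2 3 t x)) ≤ A.cost j s := by
      refine A.lower_close hv x hxT (unit_tupF 2 3 t p0) (avoid_tupF 2 3 t p0 htv fun w hw hp => ?_)
      refine hxa ?_
      rw [← hp ⟨a, ha⟩ (Nat.lt_succ_self a), hw ⟨a, ha⟩ (Nat.lt_succ_self a)]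
      exact put_of_eq z 0 rfl
    refine (A.nrm_add_le ((unit_tup s x).bdd.mul ((unit_tup s p0).bdd.sub (unit_tupF 2 3 t p0).bdd))
      ((unit_tupF 2 3 t p0).bdd.mul ((unit_tup s x).bdd.sub (unit_tupF 2 3 t x).bdd))).trans ?_
    linarith
  -- the form is largest on the duo itself
  have htop : s.Valid K (s.top K) := hv.at_top
  have hTs : T ≤ s.top K := by
    rw [hT, ht]
    cases s with
    | leaf => exact le_rfl
    | node h L R => exact Nat.sub_le h j
  have hinv : ∀ (w : Fin K → ℕ) (c : ℕ) (σ : Equiv.Perm ℕ), c < T →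
      permMap (kids w c σ) p0 = p0 →
      G (permMap (kids w c σ) y) ≤ G y ∧
        A.pair (tup s p0 * tup s (permMap (kids w c σ) y))
          (tup s p0 * tup s (permMap (kids w c σ) y)) = G y := by
    intro w c σ hc hp
    have e : act (permMap (kids w c σ)) f = tup s p0 * tup s (permMap (kids w c σ) y) := by
      show act _ (tup s p0 * tup s y) = _
      rw [act_mul, act_move htop (by omega), act_move htop (by omega), hp]
    have e2 := A.pair_act (local_kids w c σ) hf.1 hf.1
    rw [e] at e2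
    refine ⟨?_, e2⟩
    simp only [G]
    refine (le_abs_self _).trans ((A.abs_pair_le hf.bdd ((unit_tup s p0).mul (unit_tup s _)).bdd).trans ?_)
    rw [nrm, nrm, e2, Real.mul_self_sqrt (A.pair_self_nonneg hf.bdd)]
    exact le_rfl
  have hya : y ⟨a, ha⟩ = 1 := put_of_eq z 1 rfl
  have hc2 : ∀ c ∈ Finset.Ioo a T, G (put y c 2) ≤ G y := fun c hc => by
    rw [Finset.mem_Ioo] at hc
    have e : permMap (kids y c (Equiv.swap 0 2)) y = put y c 2 := funext fun l => by
      simp only [permMap, kids]
      rcases lt_trichotomy (l : ℕ) c with hlt | heq | hgt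
      · simp [hlt.ne, put_of_lt _ _ hlt]
      · have h0 : y l = 0 := put_of_gt z 1 (by omega)
        have hag : Agree c y y := fun _ _ => rfl
        rw [if_pos ⟨heq, hag⟩, put_of_eq _ _ heq, h0, Equiv.swap_apply_left]
      · have h0 : y l = 0 := put_of_gt z 1 (by omega)
        simp [hgt.ne', put_of_gt _ _ hgt, h0]
    rw [← e]
    refine (hinv y c _ hc.2 (funext fun l => ?_)).1
    simp only [permMap, kids]
    rw [if_neg]
    · rfl
    · rintro ⟨hl, hag⟩
      have h1 := hag ⟨a, ha⟩ hc.1
      rw [hya] at h1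
      rw [show p0 ⟨a, ha⟩ = 0 from put_of_eq z 0 rfl] at h1
      exact zero_ne_one h1
  have ea : permMap (kids z a (Equiv.swap 1 2)) y = xa := funext fun l => by
    simp only [permMap, kids]
    rcases lt_trichotomy (l : ℕ) a with hlt | heq | hgt
    · simp [hlt.ne, y, xa, put_of_lt _ _ hlt]
    · rw [if_pos ⟨heq, agree_put z 1 le_rfl⟩]
      simp [y, xa, put_of_eq _ _ heq]
    · simp [hgt.ne', y, xa, put_of_gt _ _ hgt]
  have ep : permMap (kids z a (Equiv.swap 1 2)) p0 = p0 := funext fun l => by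
    simp only [permMap, kids]
    split_ifs with hl
    · rw [show p0 l = 0 from put_of_eq z 0 hl.1]
      decide
    · rfl
  have hca := hinv z a _ (by omega) ep
  rw [ea] at hca
  -- the identity
  have htel := hA.same a s t ha hs htv (by rw [ht, Sh.size_lower]) hts
  simp only at htel
  change |mpar K T * G' y - gapK K * ∑ c ∈ Finset.Ioo a T, G' (put y c 2)
      - (mpar K (a + 1) + gapK K) * G' xa
      + gapK K * A.mean f * A.mean (tupF 2 3 t p0 * tupF 2 3 t y)| ≤ _ at htel
  set p := gapK K with hp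
  have hp0 : 0 ≤ p := by rw [hp, gapK]; positivity
  have hmp : ∀ g : ℕ, mpar K g = g * p := fun g => by rw [mpar, hp, gapK]; ring
  rw [hmp, hmp, Nat.cast_succ] at htel
  set cst := A.cost j s
  have hcst : 0 ≤ cst := A.cost_nonneg j s
  have dy := abs_le.1 (hcl y (by omega) fun l hl => by
    rw [show y l = 0 from put_of_gt z 1 (by omega)]; norm_num)
  have da := abs_le.1 (hcl xa (by rw [show xa ⟨a, ha⟩ = 2 from put_of_eq z 2 rfl]; norm_num) fun l hl => by
    rw [show xa l = 0 from put_of_gt z 2 (by omega)]; norm_num)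
  set N : ℝ := ((T - a - 1 : ℕ) : ℝ) with hN
  have hNT : N = T - (a + 1) := by
    rw [hN, Nat.sub_sub, Nat.cast_sub haT]; push_cast; ring
  have hsum : ∑ c ∈ Finset.Ioo a T, G' (put y c 2) ≤ N * (G y + 2 * cst) := by
    refine (Finset.sum_le_card_nsmul _ _ (G y + 2 * cst) fun c hc => ?_).trans_eq ?_
    · have hc' := Finset.mem_Ioo.1 hc
      have := abs_le.1 (hcl (put y c 2) (by rw [put_of_lt y 2 hc'.1, hya]; norm_num) fun l hl => by
        rw [put_of_gt y 2 (show c < (l : ℕ) by omega)]; norm_num)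
      linarith [hc2 c hc]
    · rw [Nat.card_Ioo, nsmul_eq_mul, hN]
  have hmean : |A.mean f * A.mean (tupF 2 3 t p0 * tupF 2 3 t y)| ≤ 1 := by
    rw [abs_mul]
    exact (mul_le_mul (A.abs_mean_le_one hf)
      (A.abs_mean_le_one ((unit_tupF 2 3 t p0).mul (unit_tupF 2 3 t y))) (abs_nonneg _)
      zero_le_one).trans_eq (one_mul 1)
  have hGa : G xa ≤ 1 := (le_abs_self _).trans ((A.abs_pair_le hf.bdd
    ((unit_tup s p0).mul (unit_tup s xa)).bdd).trans ((mul_le_mul (A.nrm_le_one hf)
      (A.nrm_le_one ((unit_tup s p0).mul (unit_tup s xa))) (A.nrm_nonneg _) zero_le_one).trans_eq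
      (one_mul 1)))
  have hT0 : 0 ≤ (T : ℝ) * p := mul_nonneg (Nat.cast_nonneg _) hp0
  have ha0 : 0 ≤ ((a : ℝ) + 1) * p + p := by positivity
  have hT1 : (2 * (T : ℝ) + 1) * p ≤ 2 := by
    rw [hp, gapK, mul_one_div, div_le_iff₀ (by positivity)]
    have : (T : ℝ) ≤ K := Nat.cast_le.2 hTK
    linarith
  have hmain : ((a : ℝ) + 1) * p * (G y - G xa)
      ≤ |C s.size| * (p + cst) + 2 * p + 4 * cst := by
    have e1 := mul_le_mul_of_nonneg_left (show G y - 2 * cst ≤ G' y by linarith) hT0
    have e2 := mul_le_mul_of_nonneg_left hsum hp0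
    have e3 := mul_le_mul_of_nonneg_left (show G' xa ≤ G xa + 2 * cst by linarith) ha0
    have e4 := (abs_le.1 hmean).1
    have e5 := mul_le_mul_of_nonneg_left e4 hp0
    have e6 := mul_le_mul_of_nonneg_left hGa hp0
    have e7 := mul_le_mul_of_nonneg_right hT1 hcst
    have e8 : C s.size * (p + A.half t) ≤ |C s.size| * (p + cst) :=
      (mul_le_mul_of_nonneg_right (le_abs_self _)
        (add_nonneg hp0 (A.half_nonneg t))).trans
        (mul_le_mul_of_nonneg_left (add_le_add le_rfl (A.half_le_cost j s)) (abs_nonneg _))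
    have e9 := (abs_le.1 htel).2
    rw [hNT] at e2
    linarith
  -- the deviation
  set fa := duo s s z a 0 2
  have hfa : Bdd fa := (unit_duo s s z a 0 2).bdd
  have hdiff : A.nrm (f - fa) ^ 2 = 2 * (G y - G xa) := by
    rw [A.nrm_sq (hf.bdd.sub hfa), A.pair_sub_left hf.bdd hfa (hf.bdd.sub hfa),
      A.pair_sub_right hf.bdd hf.bdd hfa, A.pair_sub_right hfa hf.bdd hfa,
      A.pair_comm hfa.1 hf.1]
    have h1 : A.pair fa fa = G y := hca.2
    have h2 : A.pair f fa = G xa := rfl
    have h3 : A.pair f f = G y := rfl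
    rw [h1, h2, h3]
    ring
  have hdev : A.dev s a ≤ 2 * A.nrm (f - fa) := by
    obtain ⟨σ, hσ, -⟩ := exists_perm 3 ![0, 1, 2] ![2, 0, 3]
      (by intro a b; fin_cases a <;> fin_cases b <;> simp)
      (by intro a b; fin_cases a <;> fin_cases b <;> simp)
    have s0 : σ 0 = 2 := by simpa using hσ 0
    have s1 : σ 1 = 0 := by simpa using hσ 1
    have s2 : σ 2 = 3 := by simpa using hσ 2
    have e : act (permMap (kids z a σ)) (f - fa) = fa - duo s s z a 2 3 := by
      show act _ (tup s p0 * tup s y - tup s p0 * tup s xa) = _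
      simp only [act_sub, act_mul, p0, y, xa, act_kids hs, s0, s1, s2]
      show _ = tup s (put z a 0) * tup s (put z a 2) - tup s (put z a 2) * tup s (put z a 3)
      rw [mul_comm (tup s (put z a 2)) (tup s (put z a 0))]
    have h2 := A.nrm_act (local_kids z a σ) (hf.bdd.sub hfa).1
    rw [e] at h2
    have h3 := A.nrm_triangle hf.bdd hfa (unit_duo s s z a 2 3).bdd
    rw [h2] at h3
    show A.nrm (f - duo s s z a 2 3) ≤ _
    linarith
  have hsq : A.dev s a ^ 2 ≤ 8 * (G y - G xa) := by
    have := pow_le_pow_left₀ (A.dev_nonneg s a) hdev 2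
    rw [mul_pow, hdiff] at this
    linarith
  rw [hmp, Nat.cast_succ]
  calc ((a : ℝ) + 1) * p * A.dev s a ^ 2 ≤ ((a : ℝ) + 1) * p * (8 * (G y - G xa)) :=
        mul_le_mul_of_nonneg_left hsq (by positivity)
    _ ≤ 8 * ((|C s.size| + 2) * p + (|C s.size| + 4) * cst) := by linarith

end Arr

/-- Few shapes branch for the first time in a given window. -/
theorem card_top (n : ℕ) : ∃ C : ℝ, 0 ≤ C ∧ ∀ K g J : ℕ, 0 < K →
    ((shapes K n g \ shapes K n (g + J)).card : ℝ) * K ≤ C * J * (K : ℝ) ^ (n - 1) := by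
  choose c hc0 hc using card_shapes
  refine ⟨∑ k ∈ Finset.Ico 1 n, c k * c (n - k), Finset.sum_nonneg fun k _ =>
    mul_nonneg (hc0 _) (hc0 _), fun K g J hK => ?_⟩
  rcases Nat.lt_or_ge n 2 with hn | hn
  · have h0 : shapes K n g \ shapes K n (g + J) = ∅ := by
      refine Finset.sdiff_eq_empty_iff_subset.2 fun s hs => ?_
      rw [mem_shapes] at hs ⊢
      cases s with
      | leaf => exact ⟨trivial, hs.2⟩
      | node a L R =>
        have := L.size_pos
        have := R.size_pos
        simp only [Sh.size] at hs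
        omega
    rw [h0]
    have := Finset.sum_nonneg fun k (_ : k ∈ Finset.Ico 1 n) => mul_nonneg (hc0 k) (hc0 (n - k))
    simp only [Finset.card_empty, Nat.cast_zero, zero_mul]
    positivity
  set a : ℕ → ℕ → ℝ := fun k h => ∑ _L ∈ shapes K k (h + 1), ∑ _R ∈ shapes K (n - k) (h + 1), (1 : ℝ)
  have ha : ∀ k h, 0 ≤ a k h := fun k h => by positivity
  have e : ((shapes K n g \ shapes K n (g + J)).card : ℝ)
      = ∑ k ∈ Finset.Ico 1 n, (∑ h ∈ Finset.Ico g K, a k h - ∑ h ∈ Finset.Ico (g + J) K, a k h) := by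
    have h1 : ∀ g', ((shapes K n g').card : ℝ)
        = ∑ k ∈ Finset.Ico 1 n, ∑ h ∈ Finset.Ico g' K, a k h := fun g' =>
      (by simp : ((shapes K n g').card : ℝ) = ∑ _s ∈ shapes K n g', (1 : ℝ)).trans
        (sum_shapes hn _)
    rw [Finset.card_sdiff_of_subset (shapes_mono (Nat.le_add_right g J)),
      Nat.cast_sub (Finset.card_le_card (shapes_mono (Nat.le_add_right g J))), h1, h1,
      Finset.sum_sub_distrib]
  rw [e, Finset.sum_mul, Finset.sum_mul, Finset.sum_mul]
  refine Finset.sum_le_sum fun k hk => ?_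
  rw [Finset.mem_Ico] at hk
  rw [← Finset.sum_sdiff_eq_sub (Finset.Ico_subset_Ico (Nat.le_add_right g J) le_rfl)]
  have hcard : (Finset.Ico g K \ Finset.Ico (g + J) K).card ≤ J := by
    refine (Finset.card_le_card (t := Finset.Ico g (g + J)) fun h hh => ?_).trans_eq (by simp)
    simp only [Finset.mem_sdiff, Finset.mem_Ico] at hh ⊢
    omega
  calc (∑ h ∈ Finset.Ico g K \ Finset.Ico (g + J) K, a k h) * K
      ≤ (J * (c k * (K : ℝ) ^ (k - 1) * (c (n - k) * (K : ℝ) ^ (n - k - 1)))) * K := by
        refine mul_le_mul_of_nonneg_right ?_ (Nat.cast_nonneg K)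
        refine (Finset.sum_le_card_nsmul _ _
          (c k * (K : ℝ) ^ (k - 1) * (c (n - k) * (K : ℝ) ^ (n - k - 1))) fun h _ => ?_).trans ?_
        · simp only [a, Finset.sum_const, nsmul_eq_mul, mul_one]
          exact mul_le_mul (hc k K _ hK) (hc _ K _ hK) (by positivity)
            (mul_nonneg (hc0 k) (by positivity))
        · rw [nsmul_eq_mul]
          exact mul_le_mul_of_nonneg_right (Nat.cast_le.2 hcard)
            (mul_nonneg (mul_nonneg (hc0 k) (by positivity)) (mul_nonneg (hc0 _) (by positivity)))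
    _ = c k * c (n - k) * J * (K : ℝ) ^ (n - 1) := by
        rw [show n - 1 = (k - 1) + (n - k - 1) + 1 by omega, pow_succ, pow_add]
        ring

namespace Arr

/-- The deviations are small on average. -/
theorem dsum_small (C : ℕ → ℝ) (n : ℕ) : 1 ≤ n → ∀ ε : ℝ, 0 < ε →
    ∀ᶠ K in atTop, ∀ A : Arr K, A.Tel C → A.dsum n ≤ ε * (K : ℝ) ^ n := by
  induction n using Nat.strong_induction_on with
  | _ n ih =>
    intro hn1 ε hε
    obtain ⟨c, hc0, hc⟩ := card_shapes n
    obtain ⟨d, hd0, hd⟩ := card_top n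
    obtain ⟨D, hD0, hD⟩ := sum_cost n
    set B := |C n|
    have hB : 0 ≤ B := abs_nonneg _
    set J := n * n + 1
    set ζ := ε / (16 * (c + 1))
    have hζ : 0 < ζ := by positivity
    set e := ε / (4 * (c + 1))
    have he : 0 < e := by positivity
    set Q := 8 / (ζ * e) * (B + 4) * J * D
    have hQ : 0 ≤ Q := by positivity
    set e' := ε / (8 * (Q + 1))
    have he' : 0 < e' := by positivity
    set δ := e' ^ 2
    have hev : ∀ᶠ K in atTop, ∀ k ∈ Finset.Ico 1 n, ∀ A : Arr K, A.Tel C →
        A.dsum k ≤ δ * (K : ℝ) ^ k :=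
      (Finset.eventually_all (Finset.Ico 1 n)).2 fun k hk => by
        rw [Finset.mem_Ico] at hk
        exact ih k hk.2 hk.1 δ (by positivity)
    -- the bound at a given depth
    set R : ℕ → ℝ := fun K => 4 * ζ * c + 2 * d * J * (1 / (K : ℝ)) + e * c
      + 8 / (ζ * e) * ((B + 2) * c * (1 / (K : ℝ))
        + (B + 4) * J * D * (e' + (δ + J * (1 / (K : ℝ))) / e'))
    have hR : ∀ᶠ K in atTop, R K ≤ ε := by
      have hlim : Tendsto R atTop (𝓝 (4 * ζ * c + 2 * d * J * 0 + e * c
          + 8 / (ζ * e) * ((B + 2) * c * 0 + (B + 4) * J * D * (e' + (δ + J * 0) / e')))) := by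
        have h0 := tendsto_one_div_atTop_nhds_zero_nat (𝕜 := ℝ)
        exact ((tendsto_const_nhds.add (h0.const_mul _)).add tendsto_const_nhds).add
          ((((h0.const_mul _)).add ((tendsto_const_nhds.add
            ((tendsto_const_nhds.add (h0.const_mul _)).div_const _)).const_mul _)).const_mul _)
      refine hlim.eventually_le_const ?_
      have h1 : ζ * (16 * (c + 1)) = ε := div_mul_cancel₀ _ (by positivity)
      have h2 : e * (4 * (c + 1)) = ε := div_mul_cancel₀ _ (by positivity)
      have h3 : e' * (8 * (Q + 1)) = ε := div_mul_cancel₀ _ (by positivity)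
      have h4 : δ / e' = e' := by simp only [δ, sq]; field_simp
      have h5 : 8 / (ζ * e) * ((B + 4) * J * D * (e' + e')) = Q * (e' + e') := by
        simp only [Q]; ring
      simp only [mul_zero, add_zero, zero_add, h4]
      rw [h5]
      nlinarith
    filter_upwards [hev, hR, eventually_gt_atTop 0] with K hsm hRK hK0 A hA
    have hK : (0 : ℝ) < K := Nat.cast_pos.2 hK0
    have hK1 : (1 : ℝ) ≤ K := Nat.one_le_cast.2 hK0
    set p := gapK K
    have hp0 : 0 ≤ p := by simp only [p, gapK]; positivity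
    have hpK : p ≤ 1 / (K : ℝ) := by
      simp only [p, gapK]
      exact one_div_le_one_div_of_le hK (by linarith)
    set P := (K : ℝ) ^ (n - 1)
    have hP : 0 ≤ P := by positivity
    have hKP : (K : ℝ) ^ n = K * P := by
      simp only [P]; rw [← pow_succ', Nat.sub_add_cancel hn1]
    set bad : ℕ → ℝ := fun a => if ((a : ℝ) + 1) < ζ * (K + 1) then 1 else 0
    set Jc : Sh → ℝ := fun s => ∑ j ∈ Finset.Icc 1 J, A.cost j s
    -- one node
    have hnode : ∀ a < K, ∑ s ∈ shapes K n (a + 1), A.dev s a ≤ 2 * (c * P) * bad a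
        + 2 * (shapes K n (a + 1) \ shapes K n (a + 1 + J)).card
        + (e * (c * P) + 8 / (ζ * e) * ((B + 2) * (c * P) * p
          + (B + 4) * (J * (D * (e' + (δ + J / K) / e') * P)))) := by
      intro a ha
      have hrest : 0 ≤ e * (c * P) + 8 / (ζ * e) * ((B + 2) * (c * P) * p
          + (B + 4) * (J * (D * (e' + (δ + J / K) / e') * P))) := by positivity
      by_cases hb : ((a : ℝ) + 1) < ζ * (K + 1)
      · have : bad a = 1 := if_pos hb
        rw [this, mul_one]
        have h1 := (Finset.sum_le_card_nsmul (shapes K n (a + 1)) _ 2 fun s _ =>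
          A.dev_le_two s a).trans_eq (nsmul_eq_mul _ _)
        have h2 := hc K (a + 1) hK0
        have h3 : (0 : ℝ) ≤ (shapes K n (a + 1) \ shapes K n (a + 1 + J)).card := Nat.cast_nonneg _
        linarith
      have hbad : bad a = 0 := if_neg hb
      rw [hbad, mul_zero, zero_add,
        ← Finset.sum_sdiff (shapes_mono (Nat.le_add_right (a + 1) J))]
      refine add_le_add ((Finset.sum_le_card_nsmul _ _ 2 fun s _ => A.dev_le_two s a).trans_eq
        (by rw [nsmul_eq_mul, mul_comm])) ?_
      have hm : ζ ≤ mpar K (a + 1) := by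
        rw [mpar, le_div_iff₀ (by positivity), Nat.cast_succ]
        linarith
      have hpt : ∀ s ∈ shapes K n (a + 1 + J), A.dev s a
          ≤ e + 8 / (ζ * e) * ((B + 2) * p + (B + 4) * Jc s) := fun s hs => by
        rw [mem_shapes] at hs
        obtain ⟨j, hj, hdis⟩ := exists_shift (J := J) hs.1 (by rw [hs.2]; exact Nat.lt_succ_self _)
        have hj' := Finset.mem_Icc.1 hj
        have h := A.dev_sq_le hA ha (hs.1.mono (by omega)) (.inr ⟨hj'.1, hdis⟩)
        rw [hs.2] at h
        have hcj : A.cost j s ≤ Jc s :=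
          Finset.single_le_sum (fun i _ => A.cost_nonneg i s) hj
        have h2 : A.dev s a ^ 2 ≤ 8 / ζ * ((B + 2) * p + (B + 4) * Jc s) := by
          rw [div_mul_eq_mul_div, le_div_iff₀ hζ]
          nlinarith [mul_le_mul_of_nonneg_right hm (sq_nonneg (A.dev s a)),
            mul_le_mul_of_nonneg_left hcj (by linarith : (0 : ℝ) ≤ B + 4)]
        have h3 : A.dev s a ≤ e + A.dev s a ^ 2 / e := by
          rw [← sub_nonneg, show e + A.dev s a ^ 2 / e - A.dev s a
            = ((A.dev s a - e / 2) ^ 2 + 3 * e ^ 2 / 4) / e by field_simp; ring]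
          positivity
        refine h3.trans (add_le_add le_rfl ((div_le_div_of_nonneg_right h2 he.le).trans_eq ?_))
        field_simp
      refine (Finset.sum_le_sum hpt).trans ?_
      simp only [Finset.sum_add_distrib, Finset.sum_const, nsmul_eq_mul, ← Finset.mul_sum]
      have hcard := hc K (a + 1 + J) hK0
      have hJ : ∑ s ∈ shapes K n (a + 1 + J), Jc s ≤ J * (D * (e' + (δ + J / K) / e') * P) := by
        simp only [Jc]
        rw [Finset.sum_comm]
        refine (Finset.sum_le_card_nsmul _ _ (D * (e' + (δ + J / K) / e') * P) fun j hj => ?_).trans_eq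
          (by simp [nsmul_eq_mul])
        rw [Finset.mem_Icc] at hj
        refine (hD K A j (a + 1 + J) e' δ hK0 (by omega) he' (by positivity)
          fun k h1 h2 => hsm k (Finset.mem_Ico.2 ⟨h1, h2⟩) A hA).trans ?_
        have : (j : ℝ) ≤ J := Nat.cast_le.2 hj.2
        gcongr
      refine add_le_add (by rw [mul_comm]; exact mul_le_mul_of_nonneg_left hcard he.le) ?_
      refine mul_le_mul_of_nonneg_left (add_le_add ?_ ?_) (by positivity)
      · rw [mul_comm, mul_assoc, mul_assoc]
        refine mul_le_mul_of_nonneg_left ?_ (by linarith)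
        rw [mul_comm]
        exact mul_le_mul_of_nonneg_right hcard hp0
      · exact mul_le_mul_of_nonneg_left hJ (by linarith)
    -- all nodes
    have hbadsum : ∑ a ∈ Finset.range K, bad a ≤ 2 * ζ * K := by
      simp only [bad]
      rw [Finset.sum_boole]
      have hsub : (Finset.range K).filter (fun a : ℕ => ((a : ℝ) + 1) < ζ * (K + 1))
          ⊆ Finset.range ⌊ζ * (K + 1)⌋₊ := fun a ha => by
        rw [Finset.mem_filter] at ha
        rw [Finset.mem_range]
        exact Nat.lt_of_succ_le (Nat.le_floor (by push_cast; linarith))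
      refine (Nat.cast_le.2 (Finset.card_le_card hsub)).trans ?_
      rw [Finset.card_range]
      refine (Nat.floor_le (by positivity)).trans ?_
      nlinarith
    have hdK : ∑ a ∈ Finset.range K, ((shapes K n (a + 1) \ shapes K n (a + 1 + J)).card : ℝ)
        ≤ d * J * P := by
      refine le_of_mul_le_mul_right ?_ hK
      rw [Finset.sum_mul]
      refine (Finset.sum_le_card_nsmul _ _ (d * J * P) fun a _ => hd K (a + 1) J hK0).trans_eq ?_
      rw [nsmul_eq_mul, Finset.card_range]
      ring
    calc A.dsum n ≤ ∑ a ∈ Finset.range K, (2 * (c * P) * bad a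
        + 2 * (shapes K n (a + 1) \ shapes K n (a + 1 + J)).card
        + (e * (c * P) + 8 / (ζ * e) * ((B + 2) * (c * P) * p
          + (B + 4) * (J * (D * (e' + (δ + J / K) / e') * P))))) :=
          Finset.sum_le_sum fun a ha => hnode a (Finset.mem_range.1 ha)
      _ ≤ 2 * (c * P) * (2 * ζ * K) + 2 * (d * J * P)
        + K * (e * (c * P) + 8 / (ζ * e) * ((B + 2) * (c * P) * (1 / (K : ℝ))
          + (B + 4) * (J * (D * (e' + (δ + J / K) / e') * P)))) := by
          simp only [Finset.sum_add_distrib, Finset.sum_const, Finset.card_range, nsmul_eq_mul,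
            ← Finset.mul_sum]
          have h1 := mul_le_mul_of_nonneg_left hbadsum (by positivity : 0 ≤ 2 * (c * P))
          have h2 := mul_le_mul_of_nonneg_left hdK (by norm_num : (0 : ℝ) ≤ 2)
          have h3 := mul_le_mul_of_nonneg_left hpK
            (by positivity : 0 ≤ (K : ℝ) * (8 / (ζ * e)) * ((B + 2) * (c * P)))
          linarith
      _ = R K * (K : ℝ) ^ n := by
          simp only [R]
          rw [hKP]
          field_simp
          ring
      _ ≤ ε * (K : ℝ) ^ n := mul_le_mul_of_nonneg_right hRK (by positivity)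

end Arr

end Vale.Agent.P168
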