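import Vale.Agent.P168.Core.Move

/-!
P168: lowering all branchings of a tuple.
-/

open MeasureTheory Filter Topology

noncomputable section

namespace Vale.Agent.P168

variable {K : ℕ}

theorem Sh.Valid.lower : ∀ {s : Sh} {g j : ℕ}, s.Valid K g → j ≤ g → (s.lower j).Valid K (g - j)
  | .leaf, _, _, _, _ => trivial
  | .node h L R, g, j, hv, hj => by
    obtain ⟨h1, h2, h3, h4⟩ := hv
    have e : h - j + 1 = h + 1 - j := by omega
    exact ⟨by omega, by omega, e ▸ h3.lower (by omega), e ▸ h4.lower (by omega)⟩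

theorem avoid_tupF {S : Set (Fin K → ℕ)} : ∀ (i k : ℕ) (s : Sh) {g : ℕ} (x : Fin K → ℕ),
    s.Valid K g → (∀ w, Agree g w x → w ∉ S) → Avoid S (tupF i k s x)
  | _, _, .leaf, _, x, hv, hS => avoid_tup .leaf x hv hS
  | i, k, .node h L R, g, x, hv, hS => by
    show Avoid S (tup L (put x h i) * tup R (put x h k))
    exact (avoid_tup L _ hv.2.2.1 fun w hw => hS w
        ((hw.mono (Nat.le_succ_of_le hv.1)).trans (agree_put x i hv.1))).mul
      (avoid_tup R _ hv.2.2.2 fun w hw => hS w
        ((hw.mono (Nat.le_succ_of_le hv.1)).trans (agree_put x k hv.1)))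

/-- A tuple in one child of a node avoids the other children. -/
theorem avoid_child {s : Sh} {h b : ℕ} (hs : s.Valid K (h + 1)) (x : Fin K → ℕ) {m : ℕ}
    {J : Set ℕ} (hb : b < K) (hbh : b ≤ h)
    (hm : (b = h ∧ m ∉ J) ∨ (b < h ∧ ∀ l : Fin K, (l : ℕ) = b → x l ∉ J)) :
    Avoid (Kid x b J) (tup s (put x h m)) := by
  refine avoid_tup s _ hs fun w hw hk => ?_
  have hv := hk.2 ⟨b, hb⟩ rfl
  rw [hw ⟨b, hb⟩ (Nat.lt_succ_of_le hbh)] at hv
  rcases hm with ⟨he, hJ⟩ | ⟨hlt, hJ⟩
  · exact hJ (put_of_eq x m (l := ⟨b, hb⟩) he ▸ hv)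
  · exact hJ ⟨b, hb⟩ rfl (put_of_lt x m (l := ⟨b, hb⟩) hlt ▸ hv)

/-- A tuple in a child of an ancestor avoids a node below another child. -/
theorem avoid_below {s : Sh} {a b : ℕ} (hs : s.Valid K (a + 1)) (x : Fin K → ℕ) {m : ℕ}
    {J : Set ℕ} (ha : a < K) (hab : a < b) (hm : m ≠ x ⟨a, ha⟩) :
    Avoid (Kid x b J) (tup s (put x a m)) := by
  refine avoid_tup s _ hs fun w hw hk => hm ?_
  rw [← hk.1 ⟨a, ha⟩ hab, hw ⟨a, ha⟩ (Nat.lt_succ_self a), put_of_eq x m (l := ⟨a, ha⟩) rfl]

/-- A tuple in a child avoids the subtree of another child of the same node. -/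
theorem avoid_sub {s : Sh} {a : ℕ} (hs : s.Valid K (a + 1)) (x : Fin K → ℕ) {m m' : ℕ}
    (ha : a < K) (hm : m ≠ m') :
    Avoid {p | Agree (a + 1) p (put x a m')} (tup s (put x a m)) := by
  refine avoid_tup s _ hs fun w hw hk => hm ?_
  have h1 := hw ⟨a, ha⟩ (Nat.lt_succ_self a)
  have h2 := hk ⟨a, ha⟩ (Nat.lt_succ_self a)
  rw [put_of_eq x m (l := ⟨a, ha⟩) rfl] at h1
  rw [put_of_eq x m' (l := ⟨a, ha⟩) rfl] at h2
  exact h1.symm.trans h2

theorem kid_subset_node (x : Fin K → ℕ) {b g : ℕ} (h : g ≤ b) (J : Set ℕ) :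
    Kid x b J ⊆ {p | Agree g p x} := fun _ hp => hp.1.mono h

theorem sub_subset_node (x : Fin K → ℕ) {a g m : ℕ} (h : g ≤ a) :
    {p | Agree (a + 1) p (put x a m)} ⊆ {p | Agree g p x} :=
  fun _ hp => (Agree.mono hp (Nat.le_succ_of_le h)).trans (agree_put x m h)

namespace Arr

variable (A : Arr K)

/-- The cost of lowering one branch by `j`. -/
def step (j h : ℕ) (X : Sh) : ℝ :=
  2 * √(A.dev X h) + 2 * √(A.dev X (h - j)) + √(A.corr X h - A.corr X (h - j))
    + 2 * √(A.dev (X.lower j) (h - j))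

theorem step_nonneg (j h : ℕ) (X : Sh) : 0 ≤ A.step j h X := by
  unfold step; positivity

/-- The cost of lowering a tuple by `j`. -/
def cost (j : ℕ) : Sh → ℝ
  | .leaf => 0
  | .node h L R => A.step j h L + A.step j h R + cost j L + cost j R

theorem cost_nonneg (j : ℕ) : ∀ s : Sh, 0 ≤ A.cost j s
  | .leaf => le_rfl
  | .node h L R => by
    have := cost_nonneg j L
    have := cost_nonneg j R
    have := A.step_nonneg j h L
    have := A.step_nonneg j h R
    simp only [cost]
    linarith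

/-- Lowering a tuple, with the first branching on fresh labels or on the standard ones. -/
theorem shift_both (j : ℕ) : ∀ (s : Sh) {g : ℕ} (x : Fin K → ℕ) {W : Obs K}, s.Valid K g → j ≤ g →
    (∀ l : Fin K, g - j ≤ (l : ℕ) → x l < 2) → Unit1 W → Avoid {p | Agree (g - j) p x} W →
    A.nrm (W * (tup s x - tupF 2 3 (s.lower j) x)) ≤ A.cost j s ∧
      A.nrm (W * (tup s x - tup (s.lower j) x)) ≤ A.cost j s
  | .leaf, _, x, W, _, _, _, _, _ => by
    have h0 : A.nrm (0 : Obs K) = 0 := by simp [nrm, pair]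
    simp [Sh.lower, tupF, cost, h0]
  | .node h L R, g, x, W, hv, hj, hx, hW, hav => by
    obtain ⟨hgh, hhK, hL, hR⟩ := hv
    set a := h - j with ha
    have haK : a < K := by omega
    have hga : g - j ≤ a := by omega
    have hxa : ∀ l : Fin K, (l : ℕ) = a → x l < 2 := fun l hl => hx l (hl ▸ hga)
    have e : a + 1 = h + 1 - j := by omega
    have hLa : L.Valid K (a + 1) := hL.mono (by omega)
    have hRa : R.Valid K (a + 1) := hR.mono (by omega)
    have hL' : (L.lower j).Valid K (a + 1) := e ▸ hL.lower (by omega)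
    have hR' : (R.lower j).Valid K (a + 1) := e ▸ hR.lower (by omega)
    have hy : ∀ l : Fin K, (l : ℕ) = a → x l < 4 := fun l hl => (hxa l hl).trans (by norm_num)
    have hWk : ∀ b J, g - j ≤ b → Avoid (Kid x b J) W := fun b J hb =>
      hav.mono (kid_subset_node x hb J)
    have huT : ∀ (s : Sh) (p : Fin K → ℕ), Unit1 (tup s p) := unit_tup
    set L0 := tup L (put x h 0)
    set R1 := tup R (put x h 1)
    set L2 := tup L (put x a 2)
    set R3 := tup R (put x a 3)
    set L2' := tup (L.lower j) (put x a 2)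
    set R3' := tup (R.lower j) (put x a 3)
    set L0' := tup (L.lower j) (put x a 0)
    set R1' := tup (R.lower j) (put x a 1)
    have hb := fun (p q : Obs K) (hp : Unit1 p) (hq : Unit1 q) => (hp.mul hq).bdd
    -- move the first half
    have m1 : A.nrm (W * R1 * (L0 - L2))
        ≤ 2 * √(A.dev L h) + 2 * √(A.dev L a) + √(A.corr L h - A.corr L a) := by
      refine A.climb hL (by omega) x hy (hW.mul (huT R _)) ?_ ?_
      · exact (hWk h _ (by omega)).mul (avoid_child hR x hhK le_rfl (.inl ⟨rfl, by simp⟩))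
      · refine (hWk a _ hga).mul (avoid_child hR x haK (by omega) ?_)
        rcases eq_or_lt_of_le (show a ≤ h by omega) with he | hlt
        · exact .inl ⟨he, by simp⟩
        · exact .inr ⟨hlt, fun l hl => by have := hxa l hl; simp; omega⟩
    -- move the second half
    have m2 : A.nrm (W * L2 * (R1 - R3))
        ≤ 2 * √(A.dev R h) + 2 * √(A.dev R a) + √(A.corr R h - A.corr R a) := by
      refine A.climb hR (by omega) x hy (hW.mul (huT L _)) ?_ ?_
      · refine (hWk h _ (by omega)).mul ?_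
        rcases eq_or_lt_of_le (show a ≤ h by omega) with he | hlt
        · exact avoid_child hLa x hhK (he ▸ le_rfl) (.inl ⟨he.symm, by simp⟩)
        · exact avoid_below hLa x haK hlt fun h2 => by have := hxa ⟨a, haK⟩ rfl; omega
      · exact (hWk a _ hga).mul (avoid_child hLa x haK le_rfl (.inl ⟨rfl, by simp⟩))
    -- lower the halves
    have hcoord : ∀ (m : ℕ) (l : Fin K), h + 1 - j ≤ (l : ℕ) → put x a m l < 2 := fun m l hl => by
      rw [put_of_gt x m (by omega)]
      norm_num
    have hWs : ∀ m, Avoid {p | Agree (h + 1 - j) p (put x a m)} W := fun m =>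
      hav.mono (e ▸ sub_subset_node x hga)
    have m3 : A.nrm (W * R3 * (L2 - L2')) ≤ A.cost j L :=
      (shift_both j L (put x a 2) hL (by omega) (hcoord 2) (hW.mul (huT R _))
        ((hWs 2).mul (e ▸ avoid_sub hRa x haK (by norm_num)))).2
    have m4 : A.nrm (W * L2' * (R3 - R3')) ≤ A.cost j R :=
      (shift_both j R (put x a 3) hR (by omega) (hcoord 3) (hW.mul (huT _ _))
        ((hWs 3).mul (e ▸ avoid_sub hL' x haK (by norm_num)))).2
    have e1 : tup (Sh.node h L R) x = L0 * R1 := rfl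
    have e2 : tupF 2 3 ((Sh.node h L R).lower j) x = L2' * R3' := rfl
    have e3 : tup ((Sh.node h L R).lower j) x = L0' * R1' := rfl
    have hF : A.nrm (W * (tup (Sh.node h L R) x - tupF 2 3 ((Sh.node h L R).lower j) x))
        ≤ A.step j h L + A.step j h R + A.cost j L + A.cost j R
          - (2 * √(A.dev (L.lower j) a) + 2 * √(A.dev (R.lower j) a)) := by
      rw [e1, e2, show W * (L0 * R1 - L2' * R3') = W * R1 * (L0 - L2) + W * L2 * (R1 - R3)
        + W * R3 * (L2 - L2') + W * L2' * (R3 - R3') by ring]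
      have b1 := (hW.mul (huT R (put x h 1))).bdd.mul
        ((huT L (put x h 0)).bdd.sub (huT L (put x a 2)).bdd)
      have b2 := (hW.mul (huT L (put x a 2))).bdd.mul
        ((huT R (put x h 1)).bdd.sub (huT R (put x a 3)).bdd)
      have b3 := (hW.mul (huT R (put x a 3))).bdd.mul
        ((huT L (put x a 2)).bdd.sub (huT (L.lower j) (put x a 2)).bdd)
      have b4 := (hW.mul (huT (L.lower j) (put x a 2))).bdd.mul
        ((huT R (put x a 3)).bdd.sub (huT (R.lower j) (put x a 3)).bdd)
      have t1 := A.nrm_add_le ((b1.add b2).add b3) b4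
      have t2 := A.nrm_add_le (b1.add b2) b3
      have t3 := A.nrm_add_le b1 b2
      simp only [step, ← ha]
      linarith
    refine ⟨hF.trans ?_, ?_⟩
    · simp only [cost]
      have := Real.sqrt_nonneg (A.dev (L.lower j) a)
      have := Real.sqrt_nonneg (A.dev (R.lower j) a)
      linarith
    -- back to the standard labels
    have m5 : A.nrm (W * R3' * (L2' - L0')) ≤ 2 * √(A.dev (L.lower j) a) := by
      refine A.op hL' x (hW.mul (huT _ _)) ?_
      exact (hWk a _ hga).mul (avoid_child hR' x haK le_rfl (.inl ⟨rfl, by simp⟩))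
    have m6 : A.nrm (W * L0' * (R3' - R1')) ≤ 2 * √(A.dev (R.lower j) a) := by
      refine A.op hR' x (hW.mul (huT _ _)) ?_
      exact (hWk a _ hga).mul (avoid_child hL' x haK le_rfl (.inl ⟨rfl, by simp⟩))
    rw [e3, show W * (tup (Sh.node h L R) x - L0' * R1')
      = W * (tup (Sh.node h L R) x - tupF 2 3 ((Sh.node h L R).lower j) x)
        + (W * R3' * (L2' - L0') + W * L0' * (R3' - R1')) by rw [e2]; ring]
    have b5 := (hW.mul (huT (R.lower j) (put x a 3))).bdd.mul
      ((huT (L.lower j) (put x a 2)).bdd.sub (huT (L.lower j) (put x a 0)).bdd)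
    have b6 := (hW.mul (huT (L.lower j) (put x a 0))).bdd.mul
      ((huT (R.lower j) (put x a 3)).bdd.sub (huT (R.lower j) (put x a 1)).bdd)
    have t1 := A.nrm_add_le (hW.bdd.mul ((huT (Sh.node h L R) x).bdd.sub
      (unit_tupF 2 3 ((Sh.node h L R).lower j) x).bdd)) (b5.add b6)
    have t2 := A.nrm_add_le b5 b6
    simp only [cost]
    linarith

end Arr

end Vale.Agent.P168
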