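import Vale.Agent.P168.Core.Shift

/-!
P168: sums over shapes.
-/

open MeasureTheory Filter Topology

noncomputable section

namespace Vale.Agent.P168

variable {K : ℕ}

theorem Sh.size_pos : ∀ s : Sh, 1 ≤ s.size
  | .leaf => le_rfl
  | .node _ L _ => (Sh.size_pos L).trans (Nat.le_add_right _ _)

theorem mem_shapesLe_valid : ∀ (m g : ℕ) {s : Sh}, s ∈ shapesLe K m g → s.Valid K g
  | 0, g, s, h => by
    simp only [shapesLe, Finset.mem_singleton] at h
    subst h
    trivial
  | m + 1, g, s, h => by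
    simp only [shapesLe, Finset.mem_insert, Finset.mem_biUnion, Finset.mem_image,
      Finset.mem_product, Finset.mem_Ico] at h
    rcases h with rfl | ⟨k, hk, ⟨L, R⟩, ⟨hL, hR⟩, rfl⟩
    · trivial
    · exact ⟨hk.1, hk.2, mem_shapesLe_valid m _ hL, mem_shapesLe_valid m _ hR⟩

theorem valid_mem_shapesLe : ∀ (m g : ℕ) {s : Sh}, s.Valid K g → s.size ≤ m + 1 →
    s ∈ shapesLe K m g
  | 0, g, .leaf, _, _ => by simp [shapesLe]
  | 0, g, .node h L R, _, hs => by
    have := L.size_pos
    have := R.size_pos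
    simp only [Sh.size] at hs
    omega
  | m + 1, g, .leaf, _, _ => by simp [shapesLe]
  | m + 1, g, .node h L R, hv, hs => by
    have := L.size_pos
    have := R.size_pos
    simp only [Sh.size] at hs
    simp only [shapesLe, Finset.mem_insert, Finset.mem_biUnion, Finset.mem_image,
      Finset.mem_product, Finset.mem_Ico]
    exact .inr ⟨h, ⟨hv.1, hv.2.1⟩, (L, R), ⟨valid_mem_shapesLe m _ hv.2.2.1 (show L.size ≤ m + 1 by omega),
      valid_mem_shapesLe m _ hv.2.2.2 (show R.size ≤ m + 1 by omega)⟩, rfl⟩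

theorem mem_shapes {n g : ℕ} {s : Sh} : s ∈ shapes K n g ↔ s.Valid K g ∧ s.size = n := by
  simp only [shapes, Finset.mem_filter]
  exact ⟨fun h => ⟨mem_shapesLe_valid _ _ h.1, h.2⟩,
    fun h => ⟨valid_mem_shapesLe _ _ h.1 (by omega), h.2⟩⟩

theorem shapes_mono {n g g' : ℕ} (h : g' ≤ g) : shapes K n g ⊆ shapes K n g' := fun _ hs => by
  rw [mem_shapes] at hs ⊢
  exact ⟨hs.1.mono h, hs.2⟩

theorem shapes_one (g : ℕ) : shapes K 1 g = {Sh.leaf} := by
  ext s
  rw [mem_shapes, Finset.mem_singleton]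
  refine ⟨fun h => ?_, fun h => h ▸ ⟨trivial, rfl⟩⟩
  cases s with
  | leaf => rfl
  | node a L R =>
    have := L.size_pos
    have := R.size_pos
    simp only [Sh.size] at h
    omega

/-- A shape with at least two leaves is a root branching and two halves. -/
theorem sum_shapes {n g : ℕ} (hn : 2 ≤ n) (F : Sh → ℝ) :
    ∑ s ∈ shapes K n g, F s = ∑ k ∈ Finset.Ico 1 n, ∑ h ∈ Finset.Ico g K,
      ∑ L ∈ shapes K k (h + 1), ∑ R ∈ shapes K (n - k) (h + 1), F (Sh.node h L R) := by
  set S := (Finset.Ico 1 n).sigma fun k => (Finset.Ico g K).sigma fun h =>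
    shapes K k (h + 1) ×ˢ shapes K (n - k) (h + 1)
  set mk : (_ : ℕ) × (_ : ℕ) × (Sh × Sh) → Sh := fun p => Sh.node p.2.1 p.2.2.1 p.2.2.2
  have himg : shapes K n g = S.image mk := by
    ext s
    simp only [S, Finset.mem_image, Finset.mem_sigma, Finset.mem_product, Finset.mem_Ico,
      mem_shapes]
    constructor
    · rintro ⟨hv, hs⟩
      cases s with
      | leaf => simp only [Sh.size] at hs; omega
      | node h L R =>
        have := L.size_pos
        have := R.size_pos
        simp only [Sh.size] at hs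
        refine ⟨⟨L.size, h, L, R⟩, ⟨⟨?_, ?_⟩, ⟨hv.1, hv.2.1⟩,
          ⟨hv.2.2.1, rfl⟩, hv.2.2.2, ?_⟩, rfl⟩
        all_goals (dsimp only; omega)
    · rintro ⟨⟨k, h, L, R⟩, ⟨⟨hk1, hk2⟩, hh, ⟨hL, hLs⟩, hR, hRs⟩, rfl⟩
      refine ⟨⟨hh.1, hh.2, hL, hR⟩, ?_⟩
      dsimp only at hk1 hk2 hLs hRs ⊢
      simp only [mk, Sh.size]
      omega
  have hinj : Set.InjOn mk S := by
    rintro ⟨k, h, L, R⟩ hp ⟨k', h', L', R'⟩ hp' he
    simp only [mk, Sh.node.injEq] at he
    obtain ⟨rfl, rfl, rfl⟩ := he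
    simp only [S, Finset.coe_sigma, Set.mem_sigma_iff, Finset.mem_coe, Finset.mem_product,
      mem_shapes] at hp hp'
    obtain rfl : k = k' := hp.2.2.1.2.symm.trans hp'.2.2.1.2
    rfl
  rw [himg, Finset.sum_image hinj, Finset.sum_sigma]
  refine Finset.sum_congr rfl fun k _ => ?_
  rw [Finset.sum_sigma]
  refine Finset.sum_congr rfl fun h _ => ?_
  rw [Finset.sum_product]

theorem card_shapes (n : ℕ) : ∃ C : ℝ, 0 ≤ C ∧ ∀ K g : ℕ, 0 < K →
    ((shapes K n g).card : ℝ) ≤ C * (K : ℝ) ^ (n - 1) := by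
  induction n using Nat.strong_induction_on with
  | _ n ih =>
    rcases Nat.lt_or_ge n 2 with hn | hn
    · refine ⟨1, zero_le_one, fun K g _ => ?_⟩
      interval_cases n
      · have : shapes K 0 g = ∅ := Finset.eq_empty_of_forall_notMem fun s hs => by
          have := (mem_shapes.1 hs).2
          have := s.size_pos
          omega
        simp [this]
      · simp [shapes_one]
    choose! C hC0 hC using ih
    refine ⟨∑ k ∈ Finset.Ico 1 n, C k * C (n - k), Finset.sum_nonneg fun k hk => ?_, fun K g hK => ?_⟩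
    · rw [Finset.mem_Ico] at hk
      exact mul_nonneg (hC0 k hk.2) (hC0 _ (by omega))
    have h1 : ((shapes K n g).card : ℝ) = ∑ s ∈ shapes K n g, (1 : ℝ) := by simp
    rw [h1, sum_shapes hn, Finset.sum_mul]
    refine Finset.sum_le_sum fun k hk => ?_
    rw [Finset.mem_Ico] at hk
    calc ∑ h ∈ Finset.Ico g K, ∑ _L ∈ shapes K k (h + 1), ∑ _R ∈ shapes K (n - k) (h + 1), (1 : ℝ)
        ≤ ∑ _h ∈ Finset.range K, C k * (K : ℝ) ^ (k - 1) * (C (n - k) * (K : ℝ) ^ (n - k - 1)) := by
          refine (Finset.sum_le_sum fun h _ => ?_).trans (Finset.sum_le_sum_of_subset_of_nonneg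
            (fun h hh => Finset.mem_range.2 (Finset.mem_Ico.1 hh).2) fun h _ _ =>
            mul_nonneg (mul_nonneg (hC0 k hk.2) (by positivity))
              (mul_nonneg (hC0 _ (by omega)) (by positivity)))
          simp only [Finset.sum_const, nsmul_eq_mul, mul_one]
          exact mul_le_mul (hC k hk.2 K _ hK) (hC _ (by omega) K _ hK) (by positivity)
            (mul_nonneg (hC0 k hk.2) (by positivity))
      _ = C k * C (n - k) * (K : ℝ) ^ (n - 1) := by
          simp only [Finset.sum_const, Finset.card_range, nsmul_eq_mul]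
          rw [show n - 1 = 1 + (k - 1) + (n - k - 1) by omega, pow_add, pow_add]
          ring

theorem lower_inj : ∀ {s t : Sh} {g j : ℕ}, s.Valid K g → t.Valid K g → j ≤ g →
    s.lower j = t.lower j → s = t
  | .leaf, .leaf, _, _, _, _, _, _ => rfl
  | .leaf, .node _ _ _, _, _, _, _, _, h => by simp [Sh.lower] at h
  | .node _ _ _, .leaf, _, _, _, _, _, h => by simp [Sh.lower] at h
  | .node a L R, .node b L' R', g, j, hs, ht, hj, h => by
    simp only [Sh.lower, Sh.node.injEq] at h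
    obtain ⟨h1, h2, h3⟩ := h
    obtain rfl : a = b := by
      have := hs.1
      have := ht.1
      omega
    have hj' : j ≤ a + 1 := by have := hs.1; omega
    rw [lower_inj hs.2.2.1 ht.2.2.1 hj' h2, lower_inj hs.2.2.2 ht.2.2.2 hj' h3]

theorem Sh.size_lower : ∀ (s : Sh) (j : ℕ), (s.lower j).size = s.size
  | .leaf, _ => rfl
  | .node _ L R, j => by simp only [Sh.lower, Sh.size, Sh.size_lower L, Sh.size_lower R]

/-- Linearisation of a square root. -/
theorem sqrt_le_lin {x e : ℝ} (hx : 0 ≤ x) (he : 0 < e) : 2 * √x ≤ 2 * e + x / e := by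
  rw [← sub_nonneg, show 2 * e + x / e - 2 * √x = ((√x - e) ^ 2 + e ^ 2) / e by
    rw [sub_sq, Real.sq_sqrt hx]
    field_simp
    ring]
  positivity

/-- The telescoping sum of a monotone bounded sequence over shifts. -/
theorem sum_shift_le (G : ℕ → ℝ) {B : ℝ} (hB : ∀ h, |G h| ≤ B) {g j : ℕ} (hj : j ≤ g) (T : ℕ) :
    ∑ h ∈ Finset.Ico g T, (G h - G (h - j)) ≤ 2 * j * B := by
  rcases Nat.le_total T g with hT | hT
  · rw [Finset.Ico_eq_empty_of_le hT, Finset.sum_empty]
    have : 0 ≤ B := (abs_nonneg _).trans (hB 0)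
    positivity
  have e : ∀ h, h ∈ Finset.Ico g T → G h - G (h - j)
      = ∑ i ∈ Finset.range j, (G (h - i) - G (h - i - 1)) := fun h hh => by
    rw [Finset.mem_Ico] at hh
    have := Finset.sum_range_sub' (fun i => G (h - i)) j
    simpa [Nat.sub_sub] using this.symm
  rw [Finset.sum_congr rfl e, Finset.sum_comm]
  refine (Finset.sum_le_sum (g := fun _ => 2 * B) fun i hi => ?_).trans_eq (by simp; ring)
  rw [Finset.mem_range] at hi
  rw [Finset.sum_Ico_eq_sum_range]
  have e2 : ∀ k ∈ Finset.range (T - g), G (g + k - i) - G (g + k - i - 1)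
      = (fun k => G (g - i - 1 + k)) (k + 1) - (fun k => G (g - i - 1 + k)) k := fun k _ => by
    simp only
    rw [show g + k - i = g - i - 1 + (k + 1) by omega,
      show g - i - 1 + (k + 1) - 1 = g - i - 1 + k by omega]
  rw [Finset.sum_congr rfl e2, Finset.sum_range_sub (fun k => G (g - i - 1 + k))]
  have h1 := abs_le.1 (hB (g - i - 1 + (T - g)))
  have h2 := abs_le.1 (hB (g - i - 1 + 0))
  linarith

namespace Arr

variable (A : Arr K)

/-- The total deviation at one size. -/
def dsum (n : ℕ) : ℝ := ∑ a ∈ Finset.range K, ∑ s ∈ shapes K n (a + 1), A.dev s a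

theorem dsum_nonneg (n : ℕ) : 0 ≤ A.dsum n :=
  Finset.sum_nonneg fun _ _ => Finset.sum_nonneg fun _ _ => A.dev_nonneg _ _

theorem sum_dev_le {k g : ℕ} :
    ∑ h ∈ Finset.Ico g K, ∑ X ∈ shapes K k (h + 1), A.dev X h ≤ A.dsum k :=
  Finset.sum_le_sum_of_subset_of_nonneg (fun h hh => Finset.mem_range.2 (Finset.mem_Ico.1 hh).2)
    fun h _ _ => Finset.sum_nonneg fun X _ => A.dev_nonneg X h

theorem sum_dev_shift {k g j : ℕ} (hj : j ≤ g) :
    ∑ h ∈ Finset.Ico g K, ∑ X ∈ shapes K k (h + 1), A.dev X (h - j) ≤ A.dsum k := by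
  calc _ ≤ ∑ h ∈ Finset.Ico g K, ∑ X ∈ shapes K k (h - j + 1), A.dev X (h - j) :=
        Finset.sum_le_sum fun h _ => Finset.sum_le_sum_of_subset_of_nonneg
          (shapes_mono (by omega)) fun X _ _ => A.dev_nonneg X _
    _ = ∑ a ∈ (Finset.Ico g K).image (· - j), ∑ X ∈ shapes K k (a + 1), A.dev X a := by
        rw [Finset.sum_image]
        intro x hx y hy hxy
        simp only [Finset.coe_Ico, Set.mem_Ico] at hx hy
        simp only at hxy
        omega
    _ ≤ _ := by
        refine Finset.sum_le_sum_of_subset_of_nonneg (fun a ha => ?_)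
          fun a _ _ => Finset.sum_nonneg fun X _ => A.dev_nonneg X a
        simp only [Finset.mem_image, Finset.mem_Ico] at ha
        obtain ⟨h, hh, rfl⟩ := ha
        exact Finset.mem_range.2 (by omega)

theorem sum_dev_lower {k g j : ℕ} (hj : j ≤ g) :
    ∑ h ∈ Finset.Ico g K, ∑ X ∈ shapes K k (h + 1), A.dev (X.lower j) (h - j) ≤ A.dsum k := by
  calc _ ≤ ∑ h ∈ Finset.Ico g K, ∑ X ∈ shapes K k (h - j + 1), A.dev X (h - j) := by
        refine Finset.sum_le_sum fun h hh => ?_
        rw [Finset.mem_Ico] at hh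
        rw [← Finset.sum_image (f := fun Y => A.dev Y (h - j)) (g := fun X => Sh.lower j X)
          fun X hX Y hY he => lower_inj (mem_shapes.1 hX).1 (mem_shapes.1 hY).1 (by omega) he]
        refine Finset.sum_le_sum_of_subset_of_nonneg (fun Y hY => ?_) fun X _ _ => A.dev_nonneg X _
        obtain ⟨X, hX, rfl⟩ := Finset.mem_image.1 hY
        rw [mem_shapes] at hX ⊢
        refine ⟨(hX.1.lower (by omega)).mono (by omega), ?_⟩
        rw [Sh.size_lower]; exact hX.2
    _ = ∑ a ∈ (Finset.Ico g K).image (· - j), ∑ X ∈ shapes K k (a + 1), A.dev X a := by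
        rw [Finset.sum_image]
        intro x hx y hy hxy
        simp only [Finset.coe_Ico, Set.mem_Ico] at hx hy
        simp only at hxy
        omega
    _ ≤ _ := by
        refine Finset.sum_le_sum_of_subset_of_nonneg (fun a ha => ?_)
          fun a _ _ => Finset.sum_nonneg fun X _ => A.dev_nonneg X a
        simp only [Finset.mem_image, Finset.mem_Ico] at ha
        obtain ⟨h, hh, rfl⟩ := ha
        exact Finset.mem_range.2 (by omega)

theorem valid_iff_lt_top {X : Sh} {h : ℕ} (hv : X.Valid K 0) (hh : h < K) :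
    X.Valid K (h + 1) ↔ h < X.top K := by
  cases X with
  | leaf => simp [Sh.top, Sh.Valid, hh]
  | node a L R =>
    simp only [Sh.top]
    exact ⟨fun H => H.1, fun H => ⟨H, hv.2⟩⟩

theorem sum_corr {k g j : ℕ} (hj : j ≤ g) :
    ∑ h ∈ Finset.Ico g K, ∑ X ∈ shapes K k (h + 1), (A.corr X h - A.corr X (h - j))
      ≤ (shapes K k 0).card * (2 * j) := by
  have hc : ∀ X h, |A.corr X h| ≤ 1 := fun X h => A.abs_mean_le_one (unit_duo X X _ h 0 1)
  have e : ∑ h ∈ Finset.Ico g K, ∑ X ∈ shapes K k (h + 1), (A.corr X h - A.corr X (h - j))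
      = ∑ X ∈ shapes K k 0, ∑ h ∈ Finset.Ico g (min K (X.top K)),
          (A.corr X h - A.corr X (h - j)) := by
    refine Finset.sum_comm' fun h X => ?_
    simp only [Finset.mem_Ico, mem_shapes, lt_min_iff]
    constructor
    · rintro ⟨⟨hg, hK⟩, hv, hs⟩
      exact ⟨⟨hg, hK, (valid_iff_lt_top (hv.mono (Nat.zero_le _)) hK).1 hv⟩,
        hv.mono (Nat.zero_le _), hs⟩
    · rintro ⟨⟨hg, hK, ht⟩, hv, hs⟩
      exact ⟨⟨hg, hK⟩, (valid_iff_lt_top hv hK).2 ht, hs⟩
  rw [e]
  refine (Finset.sum_le_sum fun X _ => (sum_shift_le (fun h => A.corr X h) (hc X) hj _).trans_eq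
    (mul_one _)).trans_eq ?_
  simp [mul_comm]

theorem card_pairs {k g : ℕ} {C : ℝ}
    (hC : ∀ h, ((shapes K k h).card : ℝ) ≤ C * (K : ℝ) ^ (k - 1)) :
    ∑ h ∈ Finset.Ico g K, ((shapes K k (h + 1)).card : ℝ) ≤ K * (C * (K : ℝ) ^ (k - 1)) := by
  refine (Finset.sum_le_sum fun h _ => hC (h + 1)).trans ?_
  simp only [Finset.sum_const, Nat.card_Ico, nsmul_eq_mul]
  have : 0 ≤ C * (K : ℝ) ^ (k - 1) := (Nat.cast_nonneg _).trans (hC 0)
  exact mul_le_mul_of_nonneg_right (Nat.cast_le.2 (Nat.sub_le _ _)) this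

theorem sum_step {k : ℕ} {C : ℝ} (hC : ∀ h, ((shapes K k h).card : ℝ) ≤ C * (K : ℝ) ^ (k - 1))
    {g j : ℕ} (hj : j ≤ g) {e : ℝ} (he : 0 < e) :
    ∑ h ∈ Finset.Ico g K, ∑ X ∈ shapes K k (h + 1), A.step j h X
      ≤ 8 * e * (K * (C * (K : ℝ) ^ (k - 1)))
        + (3 * A.dsum k + C * (K : ℝ) ^ (k - 1) * (2 * j)) / e := by
  have hpt : ∀ h ∈ Finset.Ico g K, ∀ X ∈ shapes K k (h + 1), A.step j h X ≤ 8 * e
      + (A.dev X h + A.dev X (h - j) + (A.corr X h - A.corr X (h - j))
        + A.dev (X.lower j) (h - j)) / e := fun h hh X hX => by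
    have hd : 0 ≤ A.corr X h - A.corr X (h - j) :=
      sub_nonneg.2 (A.corr_mono (mem_shapes.1 hX).1 (Nat.sub_le h j))
    have h1 := sqrt_le_lin (A.dev_nonneg X h) he
    have h2 := sqrt_le_lin (A.dev_nonneg X (h - j)) he
    have h3 := sqrt_le_lin hd he
    have h4 := sqrt_le_lin (A.dev_nonneg (X.lower j) (h - j)) he
    have := Real.sqrt_nonneg (A.corr X h - A.corr X (h - j))
    simp only [step, add_div]
    linarith
  refine (Finset.sum_le_sum fun h hh => Finset.sum_le_sum (hpt h hh)).trans ?_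
  simp only [Finset.sum_add_distrib, ← Finset.sum_div, Finset.sum_const, nsmul_eq_mul]
  refine add_le_add ?_ (div_le_div_of_nonneg_right ?_ he.le)
  · rw [← Finset.sum_mul, mul_comm]
    exact mul_le_mul_of_nonneg_left (card_pairs hC) (by positivity)
  · have h1 := A.sum_dev_le (k := k) (g := g)
    have h2 := A.sum_dev_shift (k := k) hj
    have h3 := A.sum_dev_lower (k := k) hj
    have h4 := (A.sum_corr (k := k) hj).trans
      (mul_le_mul_of_nonneg_right (hC 0) (by positivity : (0 : ℝ) ≤ 2 * j))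
    linarith

end Arr

/-- The average cost of lowering a tuple. -/
theorem sum_cost (n : ℕ) : ∃ C : ℝ, 0 ≤ C ∧ ∀ (K : ℕ) (A : Arr K) (j g : ℕ) (e δ : ℝ), 0 < K →
    j ≤ g → 0 < e → 0 ≤ δ → (∀ k, 1 ≤ k → k < n → A.dsum k ≤ δ * (K : ℝ) ^ k) →
    ∑ s ∈ shapes K n g, A.cost j s ≤ C * (e + (δ + j / K) / e) * (K : ℝ) ^ (n - 1) := by
  induction n using Nat.strong_induction_on with
  | _ n ih =>
    rcases Nat.lt_or_ge n 2 with hn | hn
    · refine ⟨0, le_rfl, fun K A j g e δ _ _ _ _ _ => ?_⟩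
      simp only [zero_mul]
      refine Finset.sum_nonpos fun s hs => ?_
      cases s with
      | leaf => exact le_rfl
      | node a L R =>
        have := (mem_shapes.1 hs).2
        have := L.size_pos
        have := R.size_pos
        simp only [Sh.size] at *
        omega
    choose! D hD0 hD using ih
    choose c hc0 hc using card_shapes
    refine ⟨∑ k ∈ Finset.Ico 1 n, ((8 + 3 + 2) * (c k + 1) * c (n - k) + (8 + 3 + 2) * c k *
      (c (n - k) + 1) + D k * c (n - k) + c k * D (n - k)), Finset.sum_nonneg fun k hk => ?_,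
      fun K A j g e δ hK hj he hδ hsm => ?_⟩
    · rw [Finset.mem_Ico] at hk
      have := hc0 k
      have := hc0 (n - k)
      have := hD0 k hk.2
      have := hD0 (n - k) (by omega)
      positivity
    rw [sum_shapes hn, Finset.sum_mul, Finset.sum_mul]
    refine Finset.sum_le_sum fun k hk => ?_
    rw [Finset.mem_Ico] at hk
    have hK' : (0 : ℝ) < K := Nat.cast_pos.2 hK
    set S := e + (δ + j / K) / e
    have hS : 0 ≤ S := by positivity
    -- one type of half
    have hhalf : ∀ k, 1 ≤ k → k < n →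
        ∑ h ∈ Finset.Ico g K, ∑ X ∈ shapes K k (h + 1), A.step j h X
          ≤ (8 + 3 + 2) * (c k + 1) * S * (K : ℝ) ^ k := fun k hk1 hk2 => by
      refine (A.sum_step (C := c k) (fun h => hc k K h hK) hj he).trans ?_
      have hp : (K : ℝ) ^ k = K * (K : ℝ) ^ (k - 1) := by
        rw [← pow_succ', Nat.sub_add_cancel hk1]
      have hd := hsm k hk1 hk2
      calc 8 * e * (K * (c k * (K : ℝ) ^ (k - 1))) + (3 * A.dsum k + c k * (K : ℝ) ^ (k - 1) * (2 * j)) / e
          ≤ 8 * e * (K * (c k * (K : ℝ) ^ (k - 1)))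
            + (3 * (δ * (K : ℝ) ^ k) + c k * (K : ℝ) ^ (k - 1) * (2 * j)) / e := by gcongr
        _ = (K : ℝ) ^ k * (8 * c k * e + 3 * (δ / e) + 2 * c k * ((j / K) / e)) := by
            rw [hp]; field_simp; ring
        _ ≤ (K : ℝ) ^ k * ((8 + 3 + 2) * (c k + 1) * S) := by
            refine mul_le_mul_of_nonneg_left ?_ (by positivity)
            have h0 := hc0 k
            have a1 : 0 ≤ δ / e := by positivity
            have a2 : 0 ≤ (j / K : ℝ) / e := by positivity
            simp only [S, add_div]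
            nlinarith [mul_nonneg h0 a1, mul_nonneg h0 a2, mul_nonneg h0 he.le]
        _ = _ := by ring
    have hin : ∀ m, 1 ≤ m → m < n → ∀ h ∈ Finset.Ico g K,
        ∑ X ∈ shapes K m (h + 1), A.cost j X ≤ D m * S * (K : ℝ) ^ (m - 1) :=
      fun m hm1 hm2 h hh => by
        rw [Finset.mem_Ico] at hh
        exact hD m hm2 K A j (h + 1) e δ hK (by omega) he hδ fun k h1 h2 => hsm k h1 (h2.trans hm2)
    set P := (K : ℝ) ^ (n - 1)
    have p1 : (K : ℝ) ^ k * (K : ℝ) ^ (n - k - 1) = P := by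
      rw [← pow_add]; congr 1; omega
    have p2 : (K : ℝ) ^ (k - 1) * (K : ℝ) ^ (n - k) = P := by
      rw [← pow_add]; congr 1; omega
    have p3 : (K : ℝ) * ((K : ℝ) ^ (k - 1) * (K : ℝ) ^ (n - k - 1)) = P := by
      rw [← pow_add, ← pow_succ']; congr 1; omega
    have hn' : n - k < n := by omega
    have T1 : ∑ h ∈ Finset.Ico g K, ((shapes K (n - k) (h + 1)).card : ℝ) *
        ∑ L ∈ shapes K k (h + 1), A.step j h L ≤ (8 + 3 + 2) * (c k + 1) * c (n - k) * S * P := by
      calc _ ≤ ∑ h ∈ Finset.Ico g K, c (n - k) * (K : ℝ) ^ (n - k - 1) *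
            ∑ L ∈ shapes K k (h + 1), A.step j h L := Finset.sum_le_sum fun h _ =>
          mul_le_mul_of_nonneg_right (hc (n - k) K _ hK)
            (Finset.sum_nonneg fun X _ => A.step_nonneg _ _ X)
        _ ≤ c (n - k) * (K : ℝ) ^ (n - k - 1) * ((8 + 3 + 2) * (c k + 1) * S * (K : ℝ) ^ k) := by
            rw [← Finset.mul_sum]
            exact mul_le_mul_of_nonneg_left (hhalf k hk.1 hk.2) (mul_nonneg (hc0 _) (by positivity))
        _ = _ := by rw [← p1]; ring
    have T2 : ∑ h ∈ Finset.Ico g K, ((shapes K k (h + 1)).card : ℝ) *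
        ∑ R ∈ shapes K (n - k) (h + 1), A.step j h R ≤ (8 + 3 + 2) * c k * (c (n - k) + 1) * S * P := by
      calc _ ≤ ∑ h ∈ Finset.Ico g K, c k * (K : ℝ) ^ (k - 1) *
            ∑ R ∈ shapes K (n - k) (h + 1), A.step j h R := Finset.sum_le_sum fun h _ =>
          mul_le_mul_of_nonneg_right (hc k K _ hK)
            (Finset.sum_nonneg fun X _ => A.step_nonneg _ _ X)
        _ ≤ c k * (K : ℝ) ^ (k - 1) * ((8 + 3 + 2) * (c (n - k) + 1) * S * (K : ℝ) ^ (n - k)) := by
            rw [← Finset.mul_sum]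
            exact mul_le_mul_of_nonneg_left (hhalf (n - k) (by omega) hn')
              (mul_nonneg (hc0 _) (by positivity))
        _ = _ := by rw [← p2]; ring
    have T3 : ∑ h ∈ Finset.Ico g K, ((shapes K (n - k) (h + 1)).card : ℝ) *
        ∑ L ∈ shapes K k (h + 1), A.cost j L ≤ D k * c (n - k) * S * P := by
      calc _ ≤ ∑ _h ∈ Finset.Ico g K, c (n - k) * (K : ℝ) ^ (n - k - 1) *
            (D k * S * (K : ℝ) ^ (k - 1)) := Finset.sum_le_sum fun h hh =>
          mul_le_mul (hc (n - k) K _ hK) (hin k hk.1 hk.2 h hh)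
            (Finset.sum_nonneg fun X _ => A.cost_nonneg j X) (mul_nonneg (hc0 _) (by positivity))
        _ ≤ (K : ℝ) * (c (n - k) * (K : ℝ) ^ (n - k - 1) * (D k * S * (K : ℝ) ^ (k - 1))) := by
            simp only [Finset.sum_const, Nat.card_Ico, nsmul_eq_mul]
            refine mul_le_mul_of_nonneg_right (Nat.cast_le.2 (Nat.sub_le _ _)) ?_
            have := hc0 (n - k); have := hD0 k hk.2
            positivity
        _ = _ := by rw [← p3]; ring
    have T4 : ∑ h ∈ Finset.Ico g K, ((shapes K k (h + 1)).card : ℝ) *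
        ∑ R ∈ shapes K (n - k) (h + 1), A.cost j R ≤ c k * D (n - k) * S * P := by
      calc _ ≤ ∑ _h ∈ Finset.Ico g K, c k * (K : ℝ) ^ (k - 1) *
            (D (n - k) * S * (K : ℝ) ^ (n - k - 1)) := Finset.sum_le_sum fun h hh =>
          mul_le_mul (hc k K _ hK) (hin (n - k) (by omega) hn' h hh)
            (Finset.sum_nonneg fun X _ => A.cost_nonneg j X) (mul_nonneg (hc0 _) (by positivity))
        _ ≤ (K : ℝ) * (c k * (K : ℝ) ^ (k - 1) * (D (n - k) * S * (K : ℝ) ^ (n - k - 1))) := by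
            simp only [Finset.sum_const, Nat.card_Ico, nsmul_eq_mul]
            refine mul_le_mul_of_nonneg_right (Nat.cast_le.2 (Nat.sub_le _ _)) ?_
            have := hc0 k; have := hD0 (n - k) hn'
            positivity
        _ = _ := by rw [← p3]; ring
    simp only [Arr.cost, Finset.sum_add_distrib, Finset.sum_const, nsmul_eq_mul, ← Finset.mul_sum]
    linarith

end Vale.Agent.P168
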